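import Mathlib

/-!
A Dvoretzky-Rogers lemma by perturbation of a contraction of maximal determinant.
-/

namespace Vale.Agent.P129

open Finset

variable {F : Type*} [NormedAddCommGroup F] [NormedSpace ℝ F]

theorem det_two_scalars {E : Type*} [AddCommGroup E] [Module ℝ E] [FiniteDimensional ℝ E]
    (W W' : Submodule ℝ E) (hc : IsCompl W W') (Q : E →ₗ[ℝ] E) (a b : ℝ)
    (h1 : ∀ x ∈ W, Q x = a • x) (h2 : ∀ x ∈ W', Q x = b • x) :
    LinearMap.det Q = a ^ Module.finrank ℝ W * b ^ Module.finrank ℝ W' := by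
  let e := Submodule.prodEquivOfIsCompl W W' hc
  have hQ : Q = e.toLinearMap ∘ₗ
      (LinearMap.prodMap (a • LinearMap.id) (b • LinearMap.id)) ∘ₗ e.symm.toLinearMap := by
    refine LinearMap.ext fun x => ?_
    obtain ⟨⟨u, v⟩, rfl⟩ := e.surjective x
    simp [e, h1 u u.2, h2 v v.2]
  rw [hQ, LinearMap.det_conj, LinearMap.det_prodMap]
  simp

/-- In dimension `2 * s` there are `s` unit vectors with weak square sum at most 16. -/
theorem exists_bessel_vectors [FiniteDimensional ℝ F] (s : ℕ)
    (hdim : Module.finrank ℝ F = 2 * s) :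
    ∃ v : Fin s → F, (∀ j, ‖v j‖ = 1) ∧
      ∀ φ : StrongDual ℝ F, ∑ j, φ (v j) ^ 2 ≤ 16 * ‖φ‖ ^ 2 := by
  classical
  rcases Nat.eq_zero_or_pos s with rfl | hs
  · exact ⟨fun j => j.elim0, fun j => j.elim0, fun φ => by simp⟩
  have hdimE : Module.finrank ℝ (EuclideanSpace ℝ (Fin (2 * s))) = 2 * s := by simp
  let E := EuclideanSpace ℝ (Fin (2 * s))
  let e0 : E ≃L[ℝ] F := ContinuousLinearEquiv.ofFinrankEq (hdimE.trans hdim.symm)
  have : ProperSpace (E →L[ℝ] F) := FiniteDimensional.proper ℝ _
  let L : (E →L[ℝ] F) → ℝ := fun T => |((e0.symm : F →L[ℝ] E).comp T).det|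
  have hLc : Continuous L :=
    (ContinuousLinearMap.continuous_det.comp (continuous_const.clm_comp continuous_id)).abs
  obtain ⟨T, hT, hmax⟩ := (isCompact_closedBall (0 : E →L[ℝ] F) 1).exists_isMaxOn
    ⟨0, by simp⟩ hLc.continuousOn
  rw [mem_closedBall_zero_iff] at hT
  have hpos : 0 < L T := by
    let c : ℝ := (‖(e0 : E →L[ℝ] F)‖ + 1)⁻¹
    have hc : 0 < c := by positivity
    refine lt_of_lt_of_le ?_ (hmax (a := c • (e0 : E →L[ℝ] F)) ?_)
    · have : ((e0.symm : F →L[ℝ] E).comp (c • (e0 : E →L[ℝ] F))).det =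
          c ^ Module.finrank ℝ E := by
        have e : (((e0.symm : F →L[ℝ] E).comp (c • (e0 : E →L[ℝ] F))) : E →ₗ[ℝ] E) =
            c • LinearMap.id := by ext x; simp
        rw [ContinuousLinearMap.det, e, LinearMap.det_smul, LinearMap.det_id, mul_one]
      simp only [L, this]
      positivity
    · rw [mem_closedBall_zero_iff, norm_smul, Real.norm_of_nonneg hc.le,
        inv_mul_le_iff₀ (by positivity)]
      linarith
  have key : ∀ W : Submodule ℝ E, s ≤ Module.finrank ℝ W →
      ∃ e ∈ W, ‖e‖ = 1 ∧ (1 / 4 : ℝ) ≤ ‖T e‖ := by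
    intro W hW
    by_contra hno
    push Not at hno
    have hsmall : ∀ e ∈ W, ‖T e‖ ≤ (1 / 4) * ‖e‖ := by
      intro e he
      rcases eq_or_ne e 0 with rfl | hne
      · simp
      have hn : 0 < ‖e‖ := norm_pos_iff.2 hne
      have := hno (‖e‖⁻¹ • e) (W.smul_mem _ he)
        (by rw [norm_smul, norm_inv, norm_norm, inv_mul_cancel₀ hn.ne'])
      rw [map_smul, norm_smul, norm_inv, norm_norm, inv_mul_lt_iff₀ hn] at this
      linarith
    let b : ℝ := Real.sqrt (3 / 4)
    have hb0 : 0 ≤ b := Real.sqrt_nonneg _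
    have hb2 : b ^ 2 = 3 / 4 := Real.sq_sqrt (by norm_num)
    let Q : E →L[ℝ] E := (2 : ℝ) • W.starProjection +
      b • (ContinuousLinearMap.id ℝ E - W.starProjection)
    have hQ1 : ∀ x ∈ W, Q x = (2 : ℝ) • x := fun x hx => by
      simp [Q, Submodule.starProjection_eq_self_iff.2 hx]
    have hQ2 : ∀ x ∈ Wᗮ, Q x = b • x := fun x hx => by
      simp [Q, W.starProjection_apply_eq_zero_iff.2 hx]
    have hTQ : ‖T.comp Q‖ ≤ 1 := by
      refine ContinuousLinearMap.opNorm_le_bound _ zero_le_one fun x => ?_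
      set u := W.starProjection x with hu
      set r := x - u with hr
      have hpy : ‖x‖ ^ 2 = ‖u‖ ^ 2 + ‖r‖ ^ 2 := by
        have hor : inner ℝ u r = 0 := Submodule.inner_right_of_mem_orthogonal
          (W.starProjection_apply_mem x) (W.sub_starProjection_mem_orthogonal x)
        have : x = u + r := by rw [hr]; abel
        rw [this, norm_add_sq_real, hor]
        ring
      have h1 : ‖T.comp Q x‖ ≤ (1 / 2) * ‖u‖ + b * ‖r‖ := by
        have e : T.comp Q x = (2 : ℝ) • T u + b • T r := by
          simp [Q, hu, hr]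
        rw [e]
        refine (norm_add_le _ _).trans (add_le_add ?_ ?_)
        · rw [norm_smul, Real.norm_two]
          linarith [hsmall u (W.starProjection_apply_mem x)]
        · rw [norm_smul, Real.norm_of_nonneg hb0]
          exact mul_le_mul_of_nonneg_left
            ((T.le_of_opNorm_le hT r).trans (one_mul _).le) hb0
      refine h1.trans ?_
      rw [one_mul]
      refine le_of_pow_le_pow_left₀ two_ne_zero (norm_nonneg _) ?_
      nlinarith [sq_nonneg (b * ‖u‖ - (1 / 2) * ‖r‖)]
    have hdet : (Q : E →ₗ[ℝ] E).det =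
        2 ^ Module.finrank ℝ W * b ^ Module.finrank ℝ Wᗮ :=
      det_two_scalars W Wᗮ (Submodule.isCompl_orthogonal W) _ 2 b hQ1 hQ2
    have hbig : 1 < 2 ^ Module.finrank ℝ W * b ^ Module.finrank ℝ Wᗮ := by
      have hsum := W.finrank_add_finrank_orthogonal
      rw [hdimE] at hsum
      have hb1 : b ≤ 1 := Real.sqrt_le_one.2 (by norm_num)
      calc (1 : ℝ) < (2 * b) ^ s := one_lt_pow₀ (by nlinarith) hs.ne'
        _ = 2 ^ s * b ^ s := mul_pow _ _ _
        _ ≤ _ := mul_le_mul (pow_le_pow_right₀ one_le_two hW)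
            (pow_le_pow_of_le_one hb0 hb1 (by omega)) (by positivity) (by positivity)
    have hle : L (T.comp Q) ≤ L T := hmax (by rwa [mem_closedBall_zero_iff])
    have hmul : L (T.comp Q) = L T * |(Q : E →ₗ[ℝ] E).det| := by
      simp only [L, ← abs_mul, ContinuousLinearMap.det]
      rw [← LinearMap.det_comp]
      rfl
    rw [hmul, hdet, abs_of_pos (by linarith)] at hle
    nlinarith
  have grow : ∀ k ≤ s, ∃ e : Fin k → E, Orthonormal ℝ e ∧ ∀ j, (1 / 4 : ℝ) ≤ ‖T (e j)‖ := by
    intro k hk
    induction k with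
    | zero => exact ⟨fun j => j.elim0, ⟨fun j => j.elim0, fun j => j.elim0⟩, fun j => j.elim0⟩
    | succ k ih =>
      obtain ⟨e, he, heT⟩ := ih (by omega)
      let W : Submodule ℝ E := (Submodule.span ℝ (Set.range e))ᗮ
      have hW : s ≤ Module.finrank ℝ W := by
        have h1 := (Submodule.span ℝ (Set.range e)).finrank_add_finrank_orthogonal
        rw [finrank_span_eq_card he.linearIndependent, Fintype.card_fin, hdimE] at h1
        simp only [W]
        omega
      obtain ⟨z, hzW, hz1, hzT⟩ := key W hW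
      have horth : ∀ j, inner ℝ (e j) z = 0 := fun j =>
        Submodule.inner_right_of_mem_orthogonal (Submodule.subset_span (s := Set.range e) (Set.mem_range_self j)) hzW
      refine ⟨Fin.snoc e z, ⟨fun j => ?_, fun j j' hjj => ?_⟩, fun j => ?_⟩
      · induction j using Fin.lastCases with
        | last => simpa using hz1
        | cast j => simpa using he.1 j
      · induction j using Fin.lastCases with
        | last =>
          induction j' using Fin.lastCases with
          | last => exact absurd rfl hjj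
          | cast j' => simp only [Fin.snoc_last, Fin.snoc_castSucc]; rw [real_inner_comm, horth]
        | cast j =>
          induction j' using Fin.lastCases with
          | last => simpa using horth j
          | cast j' => simpa using he.2 (fun e => hjj (by rw [e]))
      · induction j using Fin.lastCases with
        | last => simpa using hzT
        | cast j => simpa using heT j
  obtain ⟨e, he, heT⟩ := grow s le_rfl
  have hne : ∀ j, 0 < ‖T (e j)‖ := fun j => lt_of_lt_of_le (by norm_num) (heT j)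
  refine ⟨fun j => ‖T (e j)‖⁻¹ • T (e j), fun j => by
    rw [norm_smul, norm_inv, norm_norm, inv_mul_cancel₀ (hne j).ne'], fun φ => ?_⟩
  let r : E := (InnerProductSpace.toDual ℝ E).symm (φ.comp T)
  have hr : ∀ j, inner ℝ (e j) r = φ (T (e j)) := fun j => by
    rw [real_inner_comm]
    exact InnerProductSpace.toDual_symm_apply
  have hrn : ‖r‖ ≤ ‖φ‖ := by
    simp only [r, LinearIsometryEquiv.norm_map]
    exact (φ.opNorm_comp_le T).trans (mul_le_of_le_one_right (norm_nonneg _) hT)
  calc ∑ j, φ (‖T (e j)‖⁻¹ • T (e j)) ^ 2 ≤ ∑ j, 16 * ‖inner ℝ (e j) r‖ ^ 2 := by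
        refine sum_le_sum fun j _ => ?_
        rw [map_smul, smul_eq_mul, mul_pow, hr, Real.norm_eq_abs, sq_abs]
        refine mul_le_mul_of_nonneg_right ?_ (sq_nonneg _)
        rw [inv_pow, inv_le_comm₀ (by have := hne j; positivity) (by norm_num)]
        nlinarith [heT j]
    _ = 16 * ∑ j, ‖inner ℝ (e j) r‖ ^ 2 := (mul_sum _ _ _).symm
    _ ≤ 16 * ‖r‖ ^ 2 := mul_le_mul_of_nonneg_left (he.sum_inner_products_le r) (by norm_num)
    _ ≤ 16 * ‖φ‖ ^ 2 := by gcongr

end Vale.Agent.P129
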