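import Mathlib

/-!
Bartoszynski's lemma: fewer than non(M) functions admit an eventually different function, proved
from an unbounded family of cardinality below non(M); slalom form.
-/

namespace Vale.Agent.P129

open Filter Topology

/-- The least cardinality of a non-meagre subset of the Cantor space. -/
noncomputable def nonMeagre : Cardinal.{0} :=
  sInf {κ | ∃ S : Set (ℕ → Bool), Cardinal.mk S = κ ∧ ¬ IsMeagre S}

/-- The bounding number. -/
noncomputable def boundingNum : Cardinal.{0} :=
  sInf {κ | ∃ B : Set (ℕ → ℕ), Cardinal.mk B = κ ∧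
    ¬ ∃ f : ℕ → ℕ, ∀ g ∈ B, ∀ᶠ n in atTop, g n ≤ f n}

theorem exists_pattern {V : Set (ℕ → Bool)} (hVo : IsOpen V) (hVd : Dense V) (N : ℕ) :
    ∃ (N' : ℕ) (σ : ℕ → Bool), N < N' ∧
      ∀ x : ℕ → Bool, (∀ p, N ≤ p → p < N' → x p = σ p) → x ∈ V := by
  classical
  suffices h : ∀ L : Finset (Fin N → Bool), ∃ (N' : ℕ) (σ : ℕ → Bool), N < N' ∧
      ∀ x : ℕ → Bool, (fun i : Fin N => x i) ∈ L →
        (∀ p, N ≤ p → p < N' → x p = σ p) → x ∈ V by
    obtain ⟨N', σ, h1, h2⟩ := h Finset.univ
    exact ⟨N', σ, h1, fun x hx => h2 x (Finset.mem_univ _) hx⟩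
  intro L
  induction L using Finset.induction_on with
  | empty => exact ⟨N + 1, fun _ => false, Nat.lt_succ_self N, fun x hx => by simp at hx⟩
  | insert z L hz ih =>
    obtain ⟨N', σ, hN, hσ⟩ := ih
    let z' : ℕ → Bool := fun p => if h : p < N then z ⟨p, h⟩ else σ p
    obtain ⟨x0, hx0c, hx0V⟩ := hVd.inter_open_nonempty (PiNat.cylinder z' N')
      (PiNat.isOpen_cylinder _ _ _) ⟨z', PiNat.self_mem_cylinder z' N'⟩
    obtain ⟨t, ⟨y, m, rfl⟩, hx0t, htV⟩ :=
      (PiNat.isTopologicalBasis_cylinders (fun _ : ℕ => Bool)).exists_subset_of_mem_open hx0V hVo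
    rw [PiNat.mem_cylinder_iff_eq] at hx0t
    refine ⟨max N' m, x0, lt_max_of_lt_left hN, fun x hx hmatch => ?_⟩
    rcases Finset.mem_insert.1 hx with h | h
    · refine htV ?_
      rw [← hx0t]
      intro p hp
      rcases Nat.lt_or_ge p N with hpN | hpN
      · rw [hx0c p (hpN.trans hN)]
        have := congrFun h ⟨p, hpN⟩
        simpa [z', hpN] using this
      · exact hmatch p hpN (lt_max_of_lt_right hp)
    · refine hσ x h fun p h1 h2 => ?_
      rw [hmatch p h1 (lt_max_of_lt_left h2), hx0c p h2]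
      simp [z', Nat.not_lt.2 h1]

/-- A meagre set only contains reals eventually differing from a chopped real. -/
theorem exists_chopped {M : Set (ℕ → Bool)} (hM : IsMeagre M) :
    ∃ (y : ℕ → Bool) (n : ℕ → ℕ), StrictMono n ∧ ∀ x ∈ M, ∃ K, ∀ k, K ≤ k →
      ∃ p, n k ≤ p ∧ p < n (k + 1) ∧ x p ≠ y p := by
  classical
  obtain ⟨S, hSo, hSd, hSc, hSM⟩ := mem_residual_iff.1 hM
  obtain ⟨U, hU⟩ := (hSc.insert Set.univ).exists_eq_range (Set.insert_nonempty _ _)
  have hUod : ∀ i, IsOpen (U i) ∧ Dense (U i) := by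
    intro i
    have : U i ∈ insert Set.univ S := hU ▸ Set.mem_range_self i
    rcases this with h | h
    · rw [h]; exact ⟨isOpen_univ, dense_univ⟩
    · exact ⟨hSo _ h, hSd _ h⟩
  let V : ℕ → Set (ℕ → Bool) := fun k => Nat.rec (U 0) (fun j W => W ∩ U (j + 1)) k
  have hV : ∀ k, IsOpen (V k) ∧ Dense (V k) := by
    intro k
    induction k with
    | zero => exact hUod 0
    | succ k ih => exact ⟨ih.1.inter (hUod _).1, ih.2.inter_of_isOpen_left (hUod _).2 ih.1⟩
  have hVU : ∀ k i, i ≤ k → V k ⊆ U i := by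
    intro k
    induction k with
    | zero => intro i hi x hx; rw [Nat.le_zero.1 hi]; exact hx
    | succ k ih =>
      intro i hi x hx
      rcases Nat.of_le_succ hi with h | h
      · exact ih i h hx.1
      · rw [h]; exact hx.2
  choose next pat hnext hpat using fun k N => exists_pattern (hV k).1 (hV k).2 N
  let n : ℕ → ℕ := fun k => Nat.rec (motive := fun _ => ℕ) 0 (fun j N => next j N) k
  have hn : StrictMono n := strictMono_nat_of_lt_succ fun k => hnext k (n k)
  let blk : ℕ → ℕ := fun p : ℕ => Nat.findGreatest (fun k : ℕ => n k ≤ p) p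
  let y : ℕ → Bool := fun p => pat (blk p) (n (blk p)) p
  have hblk : ∀ k p, n k ≤ p → p < n (k + 1) → blk p = k := by
    intro k p h1 h2
    refine le_antisymm ?_ (Nat.le_findGreatest ((hn.id_le k).trans h1) h1)
    by_contra h
    push Not at h
    have hs : n (blk p) ≤ p :=
      Nat.findGreatest_spec (P := fun j => n j ≤ p) ((hn.id_le k).trans h1) h1
    have := hn.monotone (show k + 1 ≤ blk p from h)
    omega
  refine ⟨y, n, hn, fun x hx => Classical.byContradiction fun hcon => ?_⟩
  push Not at hcon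
  refine hSM (fun t ht => ?_) hx
  obtain ⟨i, rfl⟩ : t ∈ Set.range U := hU ▸ Set.mem_insert_of_mem _ ht
  obtain ⟨k, hik, hk⟩ := hcon i
  refine hVU k i hik (hpat k (n k) x fun p h1 h2 => ?_)
  rw [hk p h1 h2]
  simp [y, hblk k p h1 h2]

theorem exists_unbounded (hb : boundingNum < nonMeagre) :
    ∃ B : Set (ℕ → ℕ), Cardinal.mk B < nonMeagre ∧ Cardinal.aleph0 ≤ Cardinal.mk B ∧
      ∀ f : ℕ → ℕ, ∃ g ∈ B, ∃ᶠ n in atTop, f n < g n := by
  have hne : {κ | ∃ B : Set (ℕ → ℕ), Cardinal.mk B = κ ∧
      ¬ ∃ f : ℕ → ℕ, ∀ g ∈ B, ∀ᶠ n in atTop, g n ≤ f n}.Nonempty := by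
    refine ⟨_, Set.univ, rfl, ?_⟩
    rintro ⟨f, hf⟩
    obtain ⟨n, hn⟩ := (hf (fun n => f n + 1) trivial).exists
    omega
  obtain ⟨B, hB, hunb⟩ := csInf_mem hne
  refine ⟨B, hB ▸ hb, ?_, fun f => ?_⟩
  · by_contra h
    push Not at h
    obtain ⟨s, hs⟩ := (Cardinal.lt_aleph0_iff_set_finite.1 h).exists_finset_coe
    refine hunb ⟨fun n => s.sup fun g => g n, fun g hg => Eventually.of_forall fun n => ?_⟩
    exact Finset.le_sup (f := fun g : ℕ → ℕ => g n) (Finset.mem_coe.1 (hs.symm ▸ hg))
  · by_contra h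
    push Not at h
    exact hunb ⟨f, fun g hg => h g hg⟩

/-- Cut points growing faster than a given function. -/
def cut (h : ℕ → ℕ) : ℕ → ℕ
  | 0 => 0
  | i + 1 => ((Finset.range (cut h i + 1)).sup h) + cut h i + 1

theorem cut_strictMono (h : ℕ → ℕ) : StrictMono (cut h) :=
  strictMono_nat_of_lt_succ fun i => by rw [cut]; omega

theorem lt_cut (h : ℕ → ℕ) {q i : ℕ} (hq : q ≤ cut h i) : h q < cut h (i + 1) := by
  have : h q ≤ (Finset.range (cut h i + 1)).sup h :=
    Finset.le_sup (Finset.mem_range.2 (Nat.lt_succ_of_le hq))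
  rw [cut]; omega

/-- Two indices are far when their difference is at least two. -/
def Far (i j : ℕ) : Prop := i + 2 ≤ j ∨ j + 2 ≤ i

instance (i j : ℕ) : Decidable (Far i j) := by unfold Far; infer_instance

/-- The claims coded by a natural number. -/
def claims (c : ℕ) : List (ℕ × List Bool) := (Encodable.decode c).getD []

/-- Greedily chosen, pairwise far claims. -/
def chosen (x : ℕ → ℕ) : ℕ → List (ℕ × List Bool)
  | 0 => []
  | m + 1 => ((claims (x m)).find? fun a => decide (∀ b ∈ chosen x m, Far a.1 b.1)).toList ++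
      chosen x m

theorem chosen_mono (x : ℕ → ℕ) {m m' : ℕ} (h : m ≤ m') {a : ℕ × List Bool}
    (ha : a ∈ chosen x m) : a ∈ chosen x m' := by
  induction m', h using Nat.le_induction with
  | base => exact ha
  | succ k _ ih => rw [chosen]; exact List.mem_append_right _ ih

theorem chosen_length (x : ℕ → ℕ) (m : ℕ) : (chosen x m).length ≤ m := by
  induction m with
  | zero => simp [chosen]
  | succ k ih =>
    rw [chosen, List.length_append]
    cases (claims (x k)).find? fun a => decide (∀ b ∈ chosen x k, Far a.1 b.1) <;>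
      simp only [Option.toList_none, Option.toList_some, List.length_nil, List.length_singleton] <;>
      omega

theorem chosen_far (x : ℕ → ℕ) (m : ℕ) :
    ∀ a ∈ chosen x m, ∀ b ∈ chosen x m, a = b ∨ Far a.1 b.1 := by
  induction m with
  | zero => simp [chosen]
  | succ k ih =>
    intro a ha b hb
    rw [chosen] at ha hb
    cases hf : (claims (x k)).find? fun a => decide (∀ b ∈ chosen x k, Far a.1 b.1) with
    | none =>
      rw [hf] at ha hb
      simp only [Option.toList_none, List.nil_append] at ha hb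
      exact ih a ha b hb
    | some c =>
      rw [hf] at ha hb
      simp only [Option.toList_some, List.singleton_append, List.mem_cons] at ha hb
      have hc : ∀ d ∈ chosen x k, Far c.1 d.1 := by simpa using List.find?_some hf
      rcases ha with rfl | ha <;> rcases hb with rfl | hb
      · exact Or.inl rfl
      · exact Or.inr (hc b hb)
      · exact Or.inr (Or.symm (hc a ha))
      · exact ih a ha b hb

open Classical in
/-- The real assembled from the chosen claims. -/
noncomputable def assemble (h x : ℕ → ℕ) : ℕ → Bool := fun p =>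
  if hp : ∃ a, (∃ m, a ∈ chosen x m) ∧ cut h a.1 ≤ p ∧ p < cut h (a.1 + 2) then
    hp.choose.2.getD (p - cut h hp.choose.1) false
  else false

theorem assemble_eq (h x : ℕ → ℕ) {a : ℕ × List Bool} {m p : ℕ} (ha : a ∈ chosen x m)
    (h1 : cut h a.1 ≤ p) (h2 : p < cut h (a.1 + 2)) :
    assemble h x p = a.2.getD (p - cut h a.1) false := by
  have hp : ∃ a, (∃ m, a ∈ chosen x m) ∧ cut h a.1 ≤ p ∧ p < cut h (a.1 + 2) :=
    ⟨a, ⟨m, ha⟩, h1, h2⟩
  rw [assemble, dif_pos hp]
  obtain ⟨⟨m', hm'⟩, h3, h4⟩ := hp.choose_spec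
  suffices hp.choose = a by rw [this]
  rcases chosen_far x (max m m') _ (chosen_mono x (le_max_right _ _) hm') a
    (chosen_mono x (le_max_left _ _) ha) with h5 | h5 | h5
  · exact h5
  · have := (cut_strictMono h).monotone h5; omega
  · have := (cut_strictMono h).monotone h5; omega

universe u

/-- Fewer than non(M) functions have a common eventually different function. -/
theorem exists_eventuallyDifferent {ι : Type u} (x : ι → ℕ → ℕ)
    (hι : Cardinal.lift.{0} (Cardinal.mk ι) < Cardinal.lift.{u} nonMeagre)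
    (hb : boundingNum < nonMeagre) :
    ∃ g : ℕ → ℕ, ∀ i, ∀ᶠ m in atTop, g m ≠ x i m := by
  classical
  obtain ⟨B, hB, hBinf, hunb⟩ := exists_unbounded hb
  let ψ : ι × B → (ℕ → Bool) := fun q => assemble (q.2 : ℕ → ℕ) (x q.1)
  have hcard : Cardinal.mk (Set.range ψ) < nonMeagre := by
    rw [← Cardinal.lift_lt.{0, u}]
    refine lt_of_le_of_lt Cardinal.mk_range_le_lift ?_
    rw [Cardinal.mk_prod, Cardinal.lift_mul]
    simp only [Cardinal.lift_lift]
    refine Cardinal.mul_lt_of_lt ?_ ?_ ?_
    · exact Cardinal.aleph0_le_lift.2 (hBinf.trans hB.le)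
    · simpa using hι
    · simpa using Cardinal.lift_lt.{0, u}.2 hB
  have hM : IsMeagre (Set.range ψ) := by
    by_contra h
    exact absurd hcard (not_lt.2 (csInf_le' ⟨_, rfl, h⟩))
  obtain ⟨y, n, hn, hy⟩ := exists_chopped hM
  obtain ⟨h, hhB, hfr⟩ := hunb fun q => n (q + 1)
  let Good : ℕ → Prop := fun i => ∃ k, cut h i ≤ n k ∧ n (k + 1) ≤ cut h (i + 2)
  have hGood : (Set.ofPred Good).Infinite := by
    refine Set.infinite_of_forall_exists_gt fun N => ?_
    obtain ⟨q, hq, hlt⟩ := (Filter.frequently_atTop.1 hfr) (cut h (N + 1))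
    have hex : ∃ i, q < cut h (i + 1) :=
      ⟨q, Nat.lt_of_lt_of_le (Nat.lt_succ_self q) ((cut_strictMono h).id_le _)⟩
    have h1 : q < cut h (Nat.find hex + 1) := Nat.find_spec hex
    have h2 : cut h (Nat.find hex) ≤ q := by
      cases hf : Nat.find hex with
      | zero => exact Nat.zero_le _
      | succ j => exact Nat.not_lt.1 (Nat.find_min hex (show j < Nat.find hex by omega))
    refine ⟨Nat.find hex, ⟨q, h2.trans (hn.id_le q), ?_⟩, ?_⟩
    · exact le_of_lt (hlt.trans (lt_cut h h1.le))
    · by_contra hle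
      push Not at hle
      have := (cut_strictMono h).monotone (show Nat.find hex + 1 ≤ N + 1 by omega)
      omega
  let row : ℕ → ℕ × List Bool := fun i =>
    (i, List.ofFn fun t : Fin (cut h (i + 2) - cut h i) => y (cut h i + t))
  let lst : ℕ → List (ℕ × List Bool) := fun m =>
    (List.range (3 * m + 1)).map fun j => row (Nat.nth Good j)
  refine ⟨fun m => Encodable.encode (lst m), fun i => ?_⟩
  by_contra hev
  rw [Filter.not_eventually, Filter.frequently_atTop] at hev
  have hstep : ∀ m, Encodable.encode (lst m) = x i m →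
      ∃ a, a ∈ chosen (x i) (m + 1) ∧ (∀ b ∈ chosen (x i) m, Far a.1 b.1) ∧
        Good a.1 ∧ a = row a.1 := by
    intro m hm
    have hcl : claims (x i m) = lst m := by simp [claims, ← hm]
    cases hf : (claims (x i m)).find? fun a => decide (∀ b ∈ chosen (x i) m, Far a.1 b.1) with
    | some a =>
      refine ⟨a, by rw [chosen, hf]; simp, by simpa using List.find?_some hf, ?_⟩
      have hmem := List.mem_of_find?_eq_some hf
      rw [hcl, List.mem_map] at hmem
      obtain ⟨j, -, rfl⟩ := hmem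
      exact ⟨Nat.nth_mem_of_infinite hGood j, rfl⟩
    | none =>
      exfalso
      rw [List.find?_eq_none, hcl] at hf
      let near : Finset ℕ :=
        (chosen (x i) m).toFinset.biUnion fun b => {b.1 - 1, b.1, b.1 + 1}
      have hsub : (Finset.range (3 * m + 1)).image (Nat.nth Good) ⊆ near := by
        intro v hv
        obtain ⟨j, hj, rfl⟩ := Finset.mem_image.1 hv
        have := hf _ (List.mem_map.2 ⟨j, List.mem_range.2 (Finset.mem_range.1 hj), rfl⟩)
        simp only [decide_eq_true_eq, not_forall] at this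
        obtain ⟨b, hb, hfar⟩ := this
        refine Finset.mem_biUnion.2 ⟨b, List.mem_toFinset.2 hb, ?_⟩
        simp only [Far, row, not_or, not_le] at hfar
        simp only [Finset.mem_insert, Finset.mem_singleton]
        omega
      have hc := Finset.card_le_card hsub
      rw [Finset.card_image_of_injective _ (Nat.nth_injective hGood), Finset.card_range] at hc
      have h1 : near.card ≤ (chosen (x i) m).toFinset.card * 3 :=
        Finset.card_biUnion_le_card_mul _ _ _ fun b _ => Finset.card_le_three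
      have h2 := (chosen (x i) m).toFinset_card_le.trans (chosen_length (x i) m)
      omega
  obtain ⟨K, hK⟩ := hy _ ⟨(i, ⟨h, hhB⟩), rfl⟩
  have hlarge : ∀ N, ∃ m a, a ∈ chosen (x i) (m + 1) ∧ Good a.1 ∧ a = row a.1 ∧ N < a.1 := by
    intro N
    by_contra hcon
    push Not at hcon
    let Q : Set ℕ := {m | Encodable.encode (lst m) = x i m}
    have hQ : Q.Infinite := Set.infinite_of_forall_exists_gt fun a => by
      obtain ⟨m, hm, he⟩ := hev (a + 1)
      exact ⟨m, not_not.1 he, hm⟩
    choose a ha hfar hgood hrow using hstep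
    let F : Q → Fin (N + 1) := fun m =>
      ⟨(a m m.2).1, Nat.lt_succ_of_le (hcon m _ (ha m m.2) (hgood m m.2) (hrow m m.2))⟩
    have := hQ.to_subtype
    obtain ⟨m, m', hne, heq⟩ := Finite.exists_ne_map_eq_of_infinite F
    have heq' : (a m m.2).1 = (a m' m'.2).1 := congrArg Fin.val heq
    rcases lt_or_gt_of_ne (fun e : (m : ℕ) = m' => hne (Subtype.ext e)) with hlt | hlt
    · rcases hfar m' m'.2 _ (chosen_mono _ hlt (ha m m.2)) with h6 | h6 <;> omega
    · rcases hfar m m.2 _ (chosen_mono _ hlt (ha m' m'.2)) with h6 | h6 <;> omega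
  obtain ⟨m, a, ha, ⟨k, hk1, hk2⟩, hrow, hN⟩ := hlarge (n K)
  have hkK : K ≤ k := by
    by_contra hlt
    push Not at hlt
    have := hn.monotone hlt.le
    have : a.1 ≤ cut h a.1 := (cut_strictMono h).id_le a.1
    omega
  obtain ⟨p, hp1, hp2, hp3⟩ := hK k hkK
  apply hp3
  change assemble h (x i) p = y p
  rw [assemble_eq h (x i) ha (hk1.trans hp1) (hp2.trans_le hk2), hrow]
  simp only [row]
  have hp0 := hk1.trans hp1
  have hlen : p - cut h a.1 < cut h (a.1 + 2) - cut h a.1 := by omega
  rw [List.getD_eq_getElem?_getD, List.getElem?_ofFn, dif_pos hlen]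
  simp [Nat.add_sub_cancel' hp0]

/-- Fewer than non(M) slaloms of prescribed finite width are eventually avoided by one function. -/
theorem exists_avoid_slaloms {ι : Type u} (S : ι → ℕ → Finset ℕ) (w : ℕ → ℕ)
    (hS : ∀ i n, (S i n).card ≤ w n)
    (hι : Cardinal.lift.{0} (Cardinal.mk ι) < Cardinal.lift.{u} nonMeagre)
    (hb : boundingNum < nonMeagre) :
    ∃ f : ℕ → ℕ, ∀ i, ∀ᶠ n in atTop, f n ∉ S i n := by
  classical
  let x : ι → ℕ → ℕ := fun i c =>
    ((Encodable.decode ((S i c.unpair.1).toList.getD c.unpair.2 0) : Option (List ℕ)).getD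
      []).getD c.unpair.2 0
  obtain ⟨g, hg⟩ := exists_eventuallyDifferent x hι hb
  refine ⟨fun n => Encodable.encode (List.ofFn fun j : Fin (w n) => g (Nat.pair n j)),
    fun i => ?_⟩
  obtain ⟨N, hN⟩ := eventually_atTop.1 (hg i)
  refine eventually_atTop.2 ⟨N, fun n hn hmem => ?_⟩
  rw [← Finset.mem_toList, List.mem_iff_getElem] at hmem
  obtain ⟨j, hj, hje⟩ := hmem
  have hjw : j < w n := (Finset.length_toList (S i n) ▸ hj).trans_le (hS i n)
  refine hN (Nat.pair n j) (hn.trans (Nat.left_le_pair _ _)) ?_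
  simp only [x, Nat.unpair_pair]
  rw [List.getD_eq_getElem?_getD (l := (S i n).toList), List.getElem?_eq_getElem hj]
  simp [hje, List.getD_eq_getElem?_getD, hjw]

end Vale.Agent.P129
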