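import Vale.Agent.P129.Construction
import Vale.Agent.P129.Category
import Vale.Agent.P129.Bessel

/-!
Separable quotients for Banach spaces of density below non(M), when the bounding number is below
non(M): levels of finitely many functionals of every size, with few bad ones at every point.
-/

namespace Vale.Agent.P129

open Filter Finset

universe u v

variable {𝕜 : Type v} [RCLike 𝕜] {X : Type u} [NormedAddCommGroup X] [NormedSpace 𝕜 X]

/-- `s` unit functionals vanishing on `U` with weak square sum at most 32. -/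
theorem exists_block (hX : ¬ FiniteDimensional 𝕜 X) (U : Finset X) (s : ℕ) :
    ∃ v : Fin s → StrongDual 𝕜 X, (∀ j, ‖v j‖ = 1) ∧ (∀ j, ∀ x ∈ U, v j x = 0) ∧
      ∀ x : X, ∑ j, ‖v j x‖ ^ 2 ≤ 32 * ‖x‖ ^ 2 := by
  classical
  obtain ⟨F, hFK, hFfin, hFdim⟩ :=
    exists_subspace_finrank (killSet (𝕜 := 𝕜) U) (killSet_not_finite hX U) (2 * s)
  obtain ⟨v, hv, hsq⟩ := exists_bessel_vectors (F := F) s hFdim
  refine ⟨fun j => (v j : StrongDual 𝕜 X), fun j => hv j, fun j x hx => hFK (v j).2 x hx,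
    fun x => ?_⟩
  let mk : StrongDual ℝ 𝕜 → StrongDual ℝ F := fun r =>
    LinearMap.mkContinuous
      { toFun := fun f : F => r ((f : StrongDual 𝕜 X) x)
        map_add' := fun f g => by simp
        map_smul' := fun c f => by simp } (‖r‖ * ‖x‖) fun f => by
      refine (r.le_opNorm _).trans ?_
      rw [mul_assoc, mul_comm ‖x‖]
      exact mul_le_mul_of_nonneg_left ((f : StrongDual 𝕜 X).le_opNorm x) (norm_nonneg _)
  have hb : ∀ r : StrongDual ℝ 𝕜, ‖r‖ ≤ 1 →
      ∑ j, r ((v j : StrongDual 𝕜 X) x) ^ 2 ≤ 16 * ‖x‖ ^ 2 := by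
    intro r hr
    refine (hsq (mk r)).trans (mul_le_mul_of_nonneg_left ?_ (by norm_num))
    refine pow_le_pow_left₀ (norm_nonneg _) ?_ 2
    refine (LinearMap.mkContinuous_norm_le _ (by positivity) _).trans ?_
    exact mul_le_of_le_one_left (norm_nonneg _) hr
  have h1 := hb RCLike.reCLM (ContinuousLinearMap.opNorm_le_bound _ zero_le_one fun z => by
    simpa using RCLike.abs_re_le_norm z)
  have h2 := hb RCLike.imCLM (ContinuousLinearMap.opNorm_le_bound _ zero_le_one fun z => by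
    simpa using RCLike.abs_im_le_norm z)
  simp only [RCLike.reCLM_apply, RCLike.imCLM_apply] at h1 h2
  calc ∑ j, ‖(v j : StrongDual 𝕜 X) x‖ ^ 2
      = ∑ j, (RCLike.re ((v j : StrongDual 𝕜 X) x) ^ 2 +
          RCLike.im ((v j : StrongDual 𝕜 X) x) ^ 2) := sum_congr rfl fun j _ => by
        rw [RCLike.norm_sq_eq_def]
        ring
    _ ≤ _ := by rw [sum_add_distrib]; linarith

/-- Blocks of every size at every level, with norming sets killed by all later levels. -/
theorem exists_blocks (hX : ¬ FiniteDimensional 𝕜 X) :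
    ∃ (O : ℕ → ∀ s : ℕ, Fin s → StrongDual 𝕜 X) (H : ℕ → Finset X),
      (∀ n, H n ⊆ H (n + 1)) ∧ (∀ n, ∀ x ∈ H n, ‖x‖ ≤ 1) ∧
      (∀ n s j, ‖O n s j‖ = 1) ∧ (∀ n s j, ∀ x ∈ H n, O n s j x = 0) ∧
      (∀ n s x, ∑ j, ‖O n s j x‖ ^ 2 ≤ 32 * ‖x‖ ^ 2) ∧
      ∀ n, ∀ f ∈ Submodule.span 𝕜
          {f | ∃ m s j, m ≤ n ∧ s ≤ n ∧ f = O m s j},
        f = 0 ∨ ∃ x ∈ H (n + 1), ‖f‖ ≤ 2 * ‖f x‖ := by
  classical
  choose opt hopt1 hopt2 hopt3 using fun U s => exists_block (𝕜 := 𝕜) hX U s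
  let gen : (ℕ → Finset X) → ℕ → Finset (StrongDual 𝕜 X) := fun G n =>
    (range (n + 1)).biUnion fun m => (range (n + 1)).biUnion fun s =>
      Finset.univ.image (opt (G m) s)
  have hfd : ∀ G n, FiniteDimensional 𝕜
      (Submodule.span 𝕜 (↑(gen G n) : Set (StrongDual 𝕜 X))) := fun G n =>
    FiniteDimensional.span_of_finite 𝕜 (gen G n).finite_toSet
  choose nrm hnrm1 hnrm2 using fun G n =>
    haveI := hfd G n
    exists_norming (Submodule.span 𝕜 (↑(gen G n) : Set (StrongDual 𝕜 X)))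
  let G : ℕ → ℕ → Finset X := fun n =>
    Nat.rec (fun _ => ∅) (fun k g => Function.update g (k + 1) (g k ∪ nrm g k)) n
  let H : ℕ → Finset X := fun n => G n n
  have hG : ∀ n m, m ≤ n → G n m = H m := by
    intro n
    induction n with
    | zero => intro m hm; rw [Nat.le_zero.1 hm]
    | succ n ih =>
      intro m hm
      rcases Nat.of_le_succ hm with h | h
      · change Function.update (G n) (n + 1) _ m = _
        rw [Function.update_of_ne (by omega), ih m h]
      · rw [h]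
  have hH : ∀ n, H (n + 1) = H n ∪ nrm (G n) n := fun n => by
    change Function.update (G n) (n + 1) _ (n + 1) = _
    rw [Function.update_self]
  refine ⟨fun n s => opt (H n) s, H, fun n => hH n ▸ subset_union_left, fun n => ?_,
    fun n s => hopt1 _ _, fun n s => hopt2 _ _, fun n s => hopt3 _ _, fun n f hf => ?_⟩
  · induction n with
    | zero => simp [H, G]
    | succ n ih =>
      intro x hx
      rw [hH, mem_union] at hx
      exact hx.elim (ih x) (hnrm1 _ _ x)
  · have hmem : f ∈ Submodule.span 𝕜 (↑(gen (G n) n) : Set (StrongDual 𝕜 X)) := by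
      refine Submodule.span_mono ?_ hf
      rintro _ ⟨m, s, j, hm, hs, rfl⟩
      simp only [gen, mem_coe, mem_biUnion, mem_range, mem_image, mem_univ, true_and]
      exact ⟨m, by omega, s, by omega, j, by rw [hG n m hm]⟩
    rcases hnrm2 (G n) n f hmem with h | ⟨x, hx, h⟩
    · exact Or.inl h
    · exact Or.inr ⟨x, hH n ▸ mem_union_right _ hx, h⟩

variable [CompleteSpace X]

theorem separable_quotient_of_dense_lt_nonMeagre (hX : ¬ FiniteDimensional 𝕜 X) (D : Set X)
    (hD : Dense D)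
    (hcard : Cardinal.lift.{0} (Cardinal.mk D) < Cardinal.lift.{u} nonMeagre)
    (hb : boundingNum < nonMeagre) :
    ∃ M : Submodule 𝕜 X, IsClosed (M : Set X) ∧ TopologicalSpace.SeparableSpace (X ⧸ M) ∧
      ¬ FiniteDimensional 𝕜 (X ⧸ M) := by
  classical
  obtain ⟨O, H, hHmono, hH1, hO1, hOkill, hOsq, hOnorm⟩ := exists_blocks (𝕜 := 𝕜) hX
  obtain ⟨B, hB, hBinf, hunb⟩ := exists_unbounded hb
  let bad : D × B → ℕ → Finset ℕ := fun q n =>
    (univ.filter fun j : Fin ((q.2 : ℕ → ℕ) n) =>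
      (1 / 2 : ℝ) ^ n * ‖(q.1 : X)‖ < ‖O n _ j (q.1 : X)‖).image Fin.val
  have hbad : ∀ q n, (bad q n).card ≤ 32 * 4 ^ n := by
    intro q n
    refine card_image_le.trans ?_
    set A := univ.filter fun j : Fin ((q.2 : ℕ → ℕ) n) =>
      (1 / 2 : ℝ) ^ n * ‖(q.1 : X)‖ < ‖O n _ j (q.1 : X)‖ with hA
    rcases eq_or_ne (q.1 : X) 0 with h0 | h0
    · have : A = ∅ := filter_eq_empty_iff.2 fun j _ => by simp [h0]
      simp [this]
    have hn : 0 < ‖(q.1 : X)‖ := norm_pos_iff.2 h0
    have h1 : (A.card : ℝ) * ((1 / 2 : ℝ) ^ n * ‖(q.1 : X)‖) ^ 2 ≤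
        32 * ‖(q.1 : X)‖ ^ 2 := by
      refine le_trans ?_ (hOsq n ((q.2 : ℕ → ℕ) n) (q.1 : X))
      refine le_trans ?_ (sum_le_sum_of_subset_of_nonneg (subset_univ A)
        fun j _ _ => sq_nonneg _)
      rw [← nsmul_eq_mul, ← sum_const]
      refine sum_le_sum fun j hj => ?_
      exact pow_le_pow_left₀ (by positivity) (mem_filter.1 hj).2.le 2
    have h4 : ((1 / 2 : ℝ) ^ n) ^ 2 = 1 / 4 ^ n := by
      rw [← pow_mul, mul_comm, pow_mul]
      norm_num [div_pow]
    have h2 : (A.card : ℝ) * ((1 / 2 : ℝ) ^ n) ^ 2 ≤ 32 := by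
      refine le_of_mul_le_mul_right ?_ (sq_pos_of_pos hn)
      linarith [h1]
    rw [h4, mul_one_div, div_le_iff₀ (by positivity)] at h2
    exact_mod_cast h2
  have hι : Cardinal.lift.{0} (Cardinal.mk (D × B)) < Cardinal.lift.{u} nonMeagre := by
    rw [Cardinal.mk_prod, Cardinal.lift_mul]
    simp only [Cardinal.lift_lift]
    refine Cardinal.mul_lt_of_lt ?_ ?_ ?_
    · exact Cardinal.aleph0_le_lift.2 (hBinf.trans hB.le)
    · simpa using hcard
    · simpa using Cardinal.lift_lt.{0, u}.2 hB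
  obtain ⟨f, hf⟩ := exists_avoid_slaloms bad (fun n => 32 * 4 ^ n) hbad hι hb
  obtain ⟨h, hhB, hfr⟩ := hunb f
  rw [Filter.frequently_atTop] at hfr
  choose next hnext1 hnext2 using hfr
  let lev : ℕ → ℕ := fun k => Nat.rec (next 0) (fun _ m => next (max m (h m) + 1)) k
  have hlev : ∀ k, lev k < lev (k + 1) ∧ h (lev k) < lev (k + 1) := fun k => by
    have h1 := hnext1 (max (lev k) (h (lev k)) + 1)
    have h2 : lev (k + 1) = next (max (lev k) (h (lev k)) + 1) := rfl
    rw [h2]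
    omega
  have hsel : ∀ k, f (lev k) < h (lev k) := fun k => by cases k <;> exact hnext2 _
  have hmono : StrictMono lev := strictMono_nat_of_lt_succ fun k => (hlev k).1
  let g : ℕ → StrongDual 𝕜 X := fun k => O (lev k) (h (lev k)) ⟨f (lev k), hsel k⟩
  let S : ℕ → Finset X := fun k => H (lev (k + 1))
  have hHmono' : ∀ a b, a ≤ b → H a ⊆ H b := fun a b hab => by
    induction b, hab using Nat.le_induction with
    | base => exact Subset.refl _
    | succ c _ ih => exact ih.trans (hHmono c)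
  obtain ⟨w, hw, hbi⟩ := exists_biorth g S (fun i => hO1 _ _ _) (fun n => hH1 _)
    (fun n i hni x hx => hOkill _ _ _ x (hHmono' _ _ (hmono.monotone hni) hx))
    (fun n a => by
      obtain ⟨N, hN⟩ := Nat.exists_eq_succ_of_ne_zero
        (show lev (n + 1) ≠ 0 by have := (hlev n).1; omega)
      have := hOnorm N (∑ i ∈ range (n + 1), a i • g i) (Submodule.sum_mem _ fun i hi => by
        refine Submodule.smul_mem _ _ (Submodule.subset_span ?_)
        have hin : i ≤ n := Nat.lt_succ_iff.1 (mem_range.1 hi)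
        have h1 := hmono (show i < n + 1 by omega)
        have h2 : h (lev i) < lev (n + 1) :=
          lt_of_lt_of_le (hlev i).2 (hmono.monotone (show i + 1 ≤ n + 1 by omega))
        exact ⟨lev i, h (lev i), _, by omega, by omega, rfl⟩)
      simpa only [S, hN] using this)
  refine quotient_of_biorth g w hw hbi D hD fun x hx => ?_
  obtain ⟨N, hN⟩ := eventually_atTop.1 (hf (⟨x, hx⟩, ⟨h, hhB⟩))
  refine Summable.of_norm_bounded_eventually_nat (summable_geometric_two.mul_right ‖x‖)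
    (eventually_atTop.2 ⟨N, fun k hk => ?_⟩)
  rw [norm_norm]
  have hkl : k ≤ lev k := hmono.id_le k
  have hnb := hN (lev k) (hk.trans hkl)
  have h1 : ‖g k x‖ ≤ (1 / 2 : ℝ) ^ lev k * ‖x‖ := by
    by_contra hc
    push Not at hc
    exact hnb (mem_image.2 ⟨⟨f (lev k), hsel k⟩, mem_filter.2 ⟨mem_univ _, hc⟩, rfl⟩)
  refine h1.trans (mul_le_mul_of_nonneg_right ?_ (norm_nonneg _))
  exact pow_le_pow_of_le_one (by norm_num) (by norm_num) hkl

end Vale.Agent.P129
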