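import Vale.Agent.P129.Oscillation
import Vale.Agent.P129.BelowNonMeagre

/-!
Separable quotients for Banach spaces of density below the bounding number: the thresholds of the
small functionals along the countable tree of choices are dominated by one function.
-/

namespace Vale.Agent.P129

open Filter Finset Topology

universe u v

/-- Fewer than `boundingNum` functions are eventually dominated by one function. -/
theorem exists_dominating {ι : Type u} (T : ι → ℕ → ℕ)
    (hι : Cardinal.lift.{0} (Cardinal.mk ι) < Cardinal.lift.{u} boundingNum) :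
    ∃ N : ℕ → ℕ, ∀ i, ∀ᶠ n in atTop, T i n ≤ N n := by
  by_contra h
  have hB : boundingNum ≤ Cardinal.mk (Set.range T) := csInf_le' ⟨Set.range T, rfl,
    fun ⟨N, hN⟩ => h ⟨N, fun i => hN _ ⟨i, rfl⟩⟩⟩
  exact absurd hι (not_lt.2 ((Cardinal.lift_le.{u}.2 hB).trans Cardinal.mk_range_le_lift))

variable {𝕜 : Type v} [RCLike 𝕜] {X : Type u} [NormedAddCommGroup X] [NormedSpace 𝕜 X]

/-- Density below the bounding number implies a separable infinite-dimensional quotient. -/
theorem separable_quotient_of_dense_lt_bounding [CompleteSpace X] (hX : ¬ FiniteDimensional 𝕜 X)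
    (D : Set X) (hD : Dense D)
    (hcard : Cardinal.lift.{0} (Cardinal.mk D) < Cardinal.lift.{u} boundingNum) :
    ∃ M : Submodule 𝕜 X, IsClosed (M : Set X) ∧ TopologicalSpace.SeparableSpace (X ⧸ M) ∧
      ¬ FiniteDimensional 𝕜 (X ⧸ M) := by
  classical
  choose opt hopt1 hopt2 hopt3 using fun (V : Finset X) (m : ℕ) =>
    exists_small_functionals (𝕜 := 𝕜) hX V (show (0 : ℝ) < (1 / 2) ^ m by positivity)
  choose nrm hnrm1 hnrm2 using fun s : Finset (StrongDual 𝕜 X) =>
    haveI : FiniteDimensional 𝕜 (Submodule.span 𝕜 (↑s : Set (StrongDual 𝕜 X))) :=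
      FiniteDimensional.span_of_finite 𝕜 s.finite_toSet
    exists_norming (Submodule.span 𝕜 (↑s : Set (StrongDual 𝕜 X)))
  -- the functionals and points used along a list of choices
  let St : List ℕ → Finset (StrongDual 𝕜 X) × Finset X := fun p =>
    List.rec (motive := fun _ => Finset (StrongDual 𝕜 X) × Finset X) (∅, ∅)
      (fun n t s => (insert (opt s.2 t.length n) s.1,
        s.2 ∪ nrm (insert (opt s.2 t.length n) s.1))) p
  have hSt : ∀ n t, St (n :: t) = (insert (opt (St t).2 t.length n) (St t).1,
      (St t).2 ∪ nrm (insert (opt (St t).2 t.length n) (St t).1)) := fun n t => rfl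
  choose T hT using fun (x : D) (p : List ℕ) =>
    eventually_atTop.1 (hopt3 (St p).2 p.length (x : X))
  obtain ⟨N, hN⟩ := exists_dominating
    (fun (x : D) c => T x ((Encodable.decode c : Option (List ℕ)).getD [])) hcard
  -- the branch chosen by the dominating function
  let p : ℕ → List ℕ := fun k => Nat.rec [] (fun _ q => N (Encodable.encode q) :: q) k
  have hlen : ∀ k, (p k).length = k := fun k => by
    induction k with
    | zero => rfl
    | succ k ih => exact congrArg (· + 1) ih
  let g : ℕ → StrongDual 𝕜 X := fun k => opt (St (p k)).2 k (N (Encodable.encode (p k)))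
  let H : ℕ → Finset X := fun k => (St (p k)).2
  have hstep : ∀ k, (St (p (k + 1))).1 = insert (g k) (St (p k)).1 ∧
      H (k + 1) = H k ∪ nrm (St (p (k + 1))).1 := fun k => by
    have := hSt (N (Encodable.encode (p k))) (p k)
    rw [hlen] at this
    exact ⟨congrArg Prod.fst this, (congrArg Prod.snd this).trans
      (congrArg (fun s => H k ∪ nrm s) (congrArg Prod.fst this).symm)⟩
  have hHm : ∀ a b, a ≤ b → H a ⊆ H b := fun a b hab => by
    induction b, hab using Nat.le_induction with
    | base => exact Subset.refl _
    | succ c _ ih => exact ih.trans ((hstep c).2 ▸ subset_union_left)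
  have hH1 : ∀ n, ∀ x ∈ H n, ‖x‖ ≤ 1 := fun n => by
    induction n with
    | zero => intro x hx; exact absurd hx (Finset.notMem_empty x)
    | succ n ih =>
      intro x hx
      rw [(hstep n).2, mem_union] at hx
      exact hx.elim (ih x) (hnrm1 _ x)
  have hgmem : ∀ n i, i < n → g i ∈ (St (p n)).1 := fun n i hi => by
    induction n, hi using Nat.le_induction with
    | base => rw [(hstep i).1]; exact mem_insert_self _ _
    | succ k _ ih => rw [(hstep k).1]; exact mem_insert_of_mem ih
  obtain ⟨u, hu, hbi⟩ := exists_biorth g (fun n => H (n + 1)) (fun i => hopt1 _ _ _)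
    (fun n => hH1 (n + 1)) (fun n i hni x hx => hopt2 _ _ _ x (hHm (n + 1) i hni hx))
    (fun n a => by
      rcases hnrm2 (St (p (n + 1))).1 (∑ i ∈ range (n + 1), a i • g i) (Submodule.sum_mem _
        fun i hi => Submodule.smul_mem _ _
          (Submodule.subset_span (hgmem _ i (mem_range.1 hi)))) with h | ⟨x, hx, h⟩
      · exact Or.inl h
      · exact Or.inr ⟨x, by rw [(hstep n).2]; exact mem_union_right _ hx, h⟩)
  refine quotient_of_biorth g u hu hbi D hD fun x hx => ?_
  have hinj : Function.Injective fun k => Encodable.encode (p k) := fun a b hab => by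
    simpa [hlen] using congrArg List.length (Encodable.encode_injective hab)
  have hev : ∀ᶠ k in atTop, T ⟨x, hx⟩ (p k) ≤ N (Encodable.encode (p k)) := by
    have := hinj.tendsto_cofinite
    rw [Nat.cofinite_eq_atTop] at this
    simpa using this.eventually (hN ⟨x, hx⟩)
  refine Summable.of_norm_bounded_eventually_nat (summable_geometric_two.mul_right ‖x‖)
    (hev.mono fun k hk => ?_)
  rw [norm_norm]
  have := hT ⟨x, hx⟩ (p k) _ hk
  rwa [hlen] at this

/-- Density below non(M) implies a separable infinite-dimensional quotient. -/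
theorem separable_quotient_of_dense_lt_nonMeagre' [CompleteSpace X] (hX : ¬ FiniteDimensional 𝕜 X)
    (D : Set X) (hD : Dense D)
    (hcard : Cardinal.lift.{0} (Cardinal.mk D) < Cardinal.lift.{u} nonMeagre) :
    ∃ M : Submodule 𝕜 X, IsClosed (M : Set X) ∧ TopologicalSpace.SeparableSpace (X ⧸ M) ∧
      ¬ FiniteDimensional 𝕜 (X ⧸ M) := by
  rcases lt_or_ge boundingNum nonMeagre with hb | hb
  · exact separable_quotient_of_dense_lt_nonMeagre hX D hD hcard hb
  · exact separable_quotient_of_dense_lt_bounding hX D hD
      (hcard.trans_le (Cardinal.lift_le.2 hb))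

end Vale.Agent.P129
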