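import Vale.Agent.P129.RandomVectors

/-!
Separable infinite-dimensional quotients of Banach spaces of density below the covering number of
the Lebesgue null ideal: random weak-star basic sequences of functionals.
-/

namespace Vale.Agent.P129

open Finset MeasureTheory
open scoped ENNReal

variable {𝕜 : Type*} [RCLike 𝕜] {X : Type*} [NormedAddCommGroup X] [NormedSpace 𝕜 X]

theorem dual_not_finite (hX : ¬ FiniteDimensional 𝕜 X) :
    ¬ Module.Finite ℝ (StrongDual 𝕜 X) := by
  intro h
  have : Module.Finite 𝕜 (StrongDual 𝕜 X) := Module.Finite.of_restrictScalars_finite ℝ 𝕜 _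
  obtain ⟨S, hS⟩ := Module.finite_def.1 this
  let J : X →ₗ[𝕜] (S → 𝕜) :=
    LinearMap.pi fun f : S => (f : StrongDual 𝕜 X).toLinearMap
  refine hX (Module.Finite.of_injective J ((injective_iff_map_eq_zero J).2 fun x hx => ?_))
  refine SeparatingDual.eq_zero_of_forall_dual_eq_zero (R := 𝕜) fun f => ?_
  have hf : f ∈ Submodule.span 𝕜 (S : Set (StrongDual 𝕜 X)) := hS ▸ Submodule.mem_top
  induction hf using Submodule.span_induction with
  | mem g hg => exact congrFun hx ⟨g, hg⟩
  | zero => simp
  | add g h _ _ hg hh => simp [hg, hh]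
  | smul c g _ hg => simp [hg]

/-- The functionals vanishing on a finite set. -/
noncomputable def killSet (U : Finset X) : Submodule ℝ (StrongDual 𝕜 X) where
  carrier := {f | ∀ x ∈ U, f x = 0}
  add_mem' := fun hf hg x hx => by simp [hf x hx, hg x hx]
  zero_mem' := fun x _ => rfl
  smul_mem' := fun c f hf x hx => by simp [hf x hx]

theorem killSet_not_finite (hX : ¬ FiniteDimensional 𝕜 X) (U : Finset X) :
    ¬ Module.Finite ℝ (killSet (𝕜 := 𝕜) U) := by
  intro h
  let L : StrongDual 𝕜 X →ₗ[ℝ] (U → 𝕜) :=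
    { toFun := fun f x => f x
      map_add' := fun f g => rfl
      map_smul' := fun c f => rfl }
  have hker : LinearMap.ker L = killSet (𝕜 := 𝕜) U := by
    ext f
    exact ⟨fun hf x hx => congrFun hf ⟨x, hx⟩, fun hf => funext fun x => hf x x.2⟩
  have : Module.Finite ℝ (LinearMap.ker L) := hker ▸ h
  have : Module.Finite ℝ (StrongDual 𝕜 X ⧸ LinearMap.ker L) :=
    Module.Finite.equiv L.quotKerEquivRange.symm
  exact dual_not_finite hX (Module.Finite.of_submodule_quotient (LinearMap.ker L))

/-- A subspace which is not finite-dimensional contains subspaces of every finite dimension. -/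
theorem exists_subspace_finrank {E : Type*} [AddCommGroup E] [Module ℝ E] (W : Submodule ℝ E)
    (hW : ¬ Module.Finite ℝ W) (N : ℕ) :
    ∃ F : Submodule ℝ E, F ≤ W ∧ FiniteDimensional ℝ F ∧ Module.finrank ℝ F = N := by
  have hrank : (N : Cardinal) ≤ Module.rank ℝ W :=
    Cardinal.natCast_le_aleph0.trans (not_lt.1 fun h => hW (Module.rank_lt_aleph0_iff.1 h))
  obtain ⟨w0, hw0⟩ := exists_linearIndependent_of_le_rank hrank
  have hw : LinearIndependent ℝ (fun i => (w0 i : E)) := hw0.map' W.subtype W.ker_subtype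
  refine ⟨Submodule.span ℝ (Set.range fun i => (w0 i : E)),
    Submodule.span_le.2 (Set.range_subset_iff.2 fun i => (w0 i).2),
    FiniteDimensional.span_of_finite ℝ (Set.finite_range _), ?_⟩
  rw [finrank_span_eq_card hw, Fintype.card_fin]

/-- One level: a random unit functional vanishing on `U` with small mean value at every point. -/
theorem exists_level (hX : ¬ FiniteDimensional 𝕜 X) (U : Finset X) {ε : ℝ} (hε : 0 < ε) :
    ∃ (m : ℕ) (v : Fin m → StrongDual 𝕜 X) (p : Fin m → ℝ), (∀ i, ‖v i‖ = 1) ∧ (∀ i, 0 ≤ p i) ∧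
      ∑ i, p i = 1 ∧ (∀ i, ∀ x ∈ U, v i x = 0) ∧
      ∀ x : X, ∑ i, p i * ‖v i x‖ ≤ 4 * ε * ‖x‖ := by
  classical
  obtain ⟨N, hN⟩ := exists_nat_gt ((1 / ε) ^ 2)
  obtain ⟨F, hFK, hFfin, hFdim⟩ :=
    exists_subspace_finrank (killSet (𝕜 := 𝕜) U) (killSet_not_finite hX U) N
  obtain ⟨m, v, p, hv, hp, hp1, hsmall⟩ := exists_small_random_vector (F := F) hε
    (by rw [hFdim]; exact hN)
  refine ⟨m, fun i => (v i : StrongDual 𝕜 X), p, fun i => hv i, hp, hp1,
    fun i x hx => hFK (v i).2 x hx, fun x => ?_⟩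
  let mk : StrongDual ℝ 𝕜 → StrongDual ℝ F := fun r =>
    LinearMap.mkContinuous
      { toFun := fun f : F => r ((f : StrongDual 𝕜 X) x)
        map_add' := fun f g => by simp
        map_smul' := fun c f => by simp } (‖r‖ * ‖x‖) fun f => by
      refine (r.le_opNorm _).trans ?_
      rw [mul_assoc, mul_comm ‖x‖]
      exact mul_le_mul_of_nonneg_left ((f : StrongDual 𝕜 X).le_opNorm x) (norm_nonneg _)
  have hb : ∀ r : StrongDual ℝ 𝕜, ‖r‖ ≤ 1 →
      ∑ i, p i * |r ((v i : StrongDual 𝕜 X) x)| ≤ 2 * ε * ‖x‖ := by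
    intro r hr
    refine (hsmall (mk r)).trans (mul_le_mul_of_nonneg_left ?_ (by positivity))
    refine (LinearMap.mkContinuous_norm_le _ (by positivity) _).trans ?_
    exact mul_le_of_le_one_left (norm_nonneg _) hr
  have h1 := hb RCLike.reCLM (ContinuousLinearMap.opNorm_le_bound _ zero_le_one fun z => by
    simpa using RCLike.abs_re_le_norm z)
  have h2 := hb RCLike.imCLM (ContinuousLinearMap.opNorm_le_bound _ zero_le_one fun z => by
    simpa using RCLike.abs_im_le_norm z)
  calc ∑ i, p i * ‖(v i : StrongDual 𝕜 X) x‖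
      ≤ ∑ i, (p i * |RCLike.re ((v i : StrongDual 𝕜 X) x)| +
          p i * |RCLike.im ((v i : StrongDual 𝕜 X) x)|) := by
        refine sum_le_sum fun i _ => ?_
        rw [← mul_add]
        refine mul_le_mul_of_nonneg_left ?_ (hp i)
        set z := (v i : StrongDual 𝕜 X) x
        nlinarith [RCLike.norm_sq_eq_def (z := z), sq_abs (RCLike.re z), sq_abs (RCLike.im z),
          abs_nonneg (RCLike.re z), abs_nonneg (RCLike.im z), norm_nonneg z]
    _ ≤ 4 * ε * ‖x‖ := by
      rw [sum_add_distrib]
      simp only [RCLike.reCLM_apply, RCLike.imCLM_apply] at h1 h2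
      linarith

/-- A finite subset of the unit ball which norms a finite-dimensional space of functionals. -/
theorem exists_norming (E : Submodule 𝕜 (StrongDual 𝕜 X)) [FiniteDimensional 𝕜 E] :
    ∃ S : Finset X, (∀ x ∈ S, ‖x‖ ≤ 1) ∧
      ∀ f ∈ E, f = 0 ∨ ∃ x ∈ S, ‖f‖ ≤ 2 * ‖f x‖ := by
  classical
  have hproper : ProperSpace E := FiniteDimensional.proper_rclike 𝕜 E
  obtain ⟨t, ht⟩ := (isCompact_sphere (0 : E) 1).elim_finite_subcover
    (fun x : {x : X // ‖x‖ ≤ 1} => {f : E | (1 / 2 : ℝ) < ‖(f : StrongDual 𝕜 X) x‖})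
    (fun x => isOpen_lt continuous_const
      (((ContinuousLinearMap.apply 𝕜 𝕜 (x : X)).continuous.comp continuous_subtype_val).norm))
    (by
      intro f hf
      have hn : ‖(f : StrongDual 𝕜 X)‖ = 1 := by
        rw [Metric.mem_sphere, Subtype.dist_eq] at hf
        simpa using hf
      obtain ⟨x, hx1, hx⟩ := ContinuousLinearMap.exists_lt_apply_of_lt_opNorm
        (f : StrongDual 𝕜 X) (r := (1 / 2 : ℝ)) (by rw [hn]; norm_num)
      exact Set.mem_iUnion.2 ⟨⟨x, hx1.le⟩, hx⟩)
  refine ⟨t.image Subtype.val, fun x hx => ?_, fun f hf => ?_⟩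
  · obtain ⟨y, -, rfl⟩ := Finset.mem_image.1 hx
    exact y.2
  rcases eq_or_ne f 0 with h0 | h0
  · exact Or.inl h0
  right
  have hn : 0 < ‖f‖ := norm_pos_iff.2 h0
  let g : E := ((‖f‖⁻¹ : ℝ) : 𝕜) • ⟨f, hf⟩
  have hg : g ∈ Metric.sphere (0 : E) 1 := by
    rw [Metric.mem_sphere, Subtype.dist_eq]
    rw [ZeroMemClass.coe_zero, dist_zero_right]
    change ‖((‖f‖⁻¹ : ℝ) : 𝕜) • f‖ = 1
    simp [norm_smul, inv_mul_cancel₀ hn.ne']
  obtain ⟨x, hx, hxg⟩ := Set.mem_iUnion₂.1 (ht hg)
  refine ⟨x, Finset.mem_image_of_mem _ hx, ?_⟩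
  simp [g, norm_smul] at hxg
  rw [← div_eq_inv_mul, lt_div_iff₀ hn] at hxg
  linarith

/-- Biorthogonal vectors of bounded norm for a triangular normed sequence of functionals. -/
theorem exists_biorth (g : ℕ → StrongDual 𝕜 X) (S : ℕ → Finset X)
    (hg : ∀ i, ‖g i‖ = 1) (hS : ∀ n, ∀ x ∈ S n, ‖x‖ ≤ 1)
    (hkill : ∀ n i, n < i → ∀ x ∈ S n, g i x = 0)
    (hnorm : ∀ n (a : ℕ → 𝕜), (∑ i ∈ range (n + 1), a i • g i) = 0 ∨
      ∃ x ∈ S n, ‖∑ i ∈ range (n + 1), a i • g i‖ ≤ 2 * ‖(∑ i ∈ range (n + 1), a i • g i) x‖) :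
    ∃ u : ℕ → X, (∀ k, ‖u k‖ ≤ 8) ∧ ∀ j k, g j (u k) = if j = k then 1 else 0 := by
  classical
  have key : ∀ k, ∃ u : X, ‖u‖ ≤ 8 ∧ ∀ j, g j u = if j = k then 1 else 0 := by
    intro k
    let A : (Fin (k + 1) → 𝕜) →ₗ[𝕜] (S k → 𝕜) :=
      { toFun := fun a x => ∑ i : Fin (k + 1), a i * g i (x : X)
        map_add' := fun a b => by ext x; simp [add_mul, sum_add_distrib]
        map_smul' := fun c a => by ext x; simp [mul_sum, mul_assoc] }
    have hbd : ∀ a i, ‖a i‖ ≤ 8 * ‖A a‖ := by
      intro a i
      let b : ℕ → 𝕜 := fun j => if h : j < k + 1 then a ⟨j, h⟩ else 0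
      let f : ℕ → StrongDual 𝕜 X := fun n => ∑ j ∈ range n, b j • g j
      have hAb : ∀ x : S k, A a x = f (k + 1) x := by
        intro x
        simp only [f, A, LinearMap.coe_mk, AddHom.coe_mk, _root_.sum_apply,
          smul_apply, smul_eq_mul]
        rw [← Fin.sum_univ_eq_sum_range]
        exact sum_congr rfl fun j _ => by simp [b, Fin.is_lt, -Order.lt_add_one_iff]
      have hfk : ‖f (k + 1)‖ ≤ 2 * ‖A a‖ := by
        rcases hnorm k b with h | ⟨x, hx, h⟩
        · simp only [f]; rw [h, norm_zero]; positivity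
        refine h.trans (mul_le_mul_of_nonneg_left ?_ zero_le_two)
        have := norm_le_pi_norm (A a) ⟨x, hx⟩
        rwa [hAb] at this
      have hpre : ∀ n ≤ k + 1, ‖f n‖ ≤ 2 * ‖f (k + 1)‖ := by
        intro n hn
        cases n with
        | zero => simp [f]
        | succ n =>
          rcases hnorm n b with h | ⟨x, hx, h⟩
          · simp only [f]; rw [h, norm_zero]; positivity
          refine h.trans (mul_le_mul_of_nonneg_left ?_ zero_le_two)
          have e : f (k + 1) x = f (n + 1) x := by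
            simp only [f, _root_.sum_apply, smul_apply]
            rw [← sum_range_add_sum_Ico _ hn, add_eq_left]
            refine sum_eq_zero fun j hj => ?_
            rw [hkill n j (by simp at hj; omega) x hx, smul_zero]
          rw [show (∑ i ∈ range (n + 1), b i • g i) x = f (k + 1) x from e.symm]
          exact ((f (k + 1)).le_opNorm x).trans
            (mul_le_of_le_one_right (norm_nonneg _) (hS n x hx))
      have h1 := hpre (i + 1) (by omega)
      have h2 := hpre i (by omega)
      have e : b i • g i = f (i + 1) - f i := by simp [f, sum_range_succ]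
      have hbi : b i = a i := by simp [b, Fin.is_lt, -Order.lt_add_one_iff]
      have h3 : ‖a i‖ ≤ ‖f (i + 1)‖ + ‖f i‖ := by
        have := congrArg norm e
        rw [norm_smul, hg, mul_one, hbi] at this
        rw [this]
        exact norm_sub_le _ _
      linarith
    have hAinj : Function.Injective A := by
      refine (injective_iff_map_eq_zero A).2 fun a ha => funext fun i => ?_
      have := hbd a i
      rw [ha, norm_zero, mul_zero] at this
      exact norm_le_zero_iff.1 this
    let e := LinearEquiv.ofInjective A hAinj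
    let ψ : StrongDual 𝕜 (LinearMap.range A) :=
      LinearMap.mkContinuous
        ((LinearMap.proj (Fin.last k)).comp e.symm.toLinearMap) 8 fun y => by
        have h := hbd (e.symm y) (Fin.last k)
        have h' : A (e.symm y) = (y : S k → 𝕜) :=
          (LinearEquiv.ofInjective_apply A (e.symm y)).symm.trans
            (congrArg Subtype.val (e.apply_symm_apply y))
        rw [h'] at h
        exact h
    obtain ⟨Φ, hΦ, hΦn⟩ := exists_extension_norm_eq (LinearMap.range A) ψ
    let l : S k → 𝕜 := fun x => Φ (Pi.single x 1)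
    have hΦl : ∀ y : S k → 𝕜, Φ y = ∑ x, y x * l x := by
      intro y
      conv_lhs => rw [← Finset.univ_sum_single y]
      simp only [map_sum]
      refine sum_congr rfl fun x _ => ?_
      have : Pi.single (M := fun _ => 𝕜) x (y x) = y x • Pi.single x 1 := by
        rw [← Pi.single_smul, smul_eq_mul, mul_one]
      rw [this, map_smul, smul_eq_mul]
    have hl : ∑ x, ‖l x‖ ≤ 8 := by
      let y : S k → 𝕜 := fun x => if l x = 0 then 0 else (‖l x‖ : 𝕜) / l x
      have hy : ‖y‖ ≤ 1 := by
        refine (pi_norm_le_iff_of_nonneg zero_le_one).2 fun x => ?_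
        simp only [y]
        split_ifs with h
        · simp
        · simp [h]
      have hyv : Φ y = ((∑ x, ‖l x‖ : ℝ) : 𝕜) := by
        rw [hΦl]
        push_cast
        refine sum_congr rfl fun x _ => ?_
        simp only [y]
        split_ifs with h
        · simp [h]
        · rw [div_mul_cancel₀ _ h]
      have h1 := Φ.le_opNorm y
      rw [hyv, RCLike.norm_ofReal, abs_of_nonneg (sum_nonneg fun x _ => norm_nonneg _)] at h1
      refine h1.trans ((mul_le_of_le_one_right (norm_nonneg _) hy).trans ?_)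
      rw [hΦn]
      exact LinearMap.mkContinuous_norm_le _ (by norm_num) _
    refine ⟨∑ x, l x • (x : X), ?_, fun j => ?_⟩
    · refine (norm_sum_le _ _).trans (le_trans (sum_le_sum fun x _ => ?_) hl)
      rw [norm_smul]
      exact mul_le_of_le_one_right (norm_nonneg _) (hS k x x.2)
    · rw [map_sum]
      rcases Nat.lt_or_ge k j with hj | hj
      · rw [if_neg (by omega)]
        exact sum_eq_zero fun x _ => by rw [map_smul, hkill k j hj x x.2, smul_zero]
      · let jj : Fin (k + 1) := ⟨j, by omega⟩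
        have h1 : Φ (A (Pi.single jj 1)) = Pi.single (M := fun _ => 𝕜) jj 1 (Fin.last k) := by
          have := hΦ ⟨A (Pi.single jj 1), LinearMap.mem_range_self _ _⟩
          rw [this]
          have he : e.symm ⟨A (Pi.single jj 1), LinearMap.mem_range_self _ _⟩ = Pi.single jj 1 :=
            e.symm_apply_eq.2 (Subtype.ext rfl)
          exact congrArg (fun z : Fin (k + 1) → 𝕜 => z (Fin.last k)) he
        have h2 : ∀ x : S k, A (Pi.single jj 1) x = g j (x : X) := fun x => by
          simp [A, Pi.single_apply, jj]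
        rw [hΦl] at h1
        simp only [h2] at h1
        simp only [map_smul, smul_eq_mul]
        rw [show (∑ x : S k, l x * g j (x : X)) = ∑ x : S k, g j (x : X) * l x from
          sum_congr rfl fun x _ => mul_comm _ _, h1]
        simp [Pi.single_apply, jj, Fin.ext_iff, eq_comm]
  choose u hu hgu using key
  exact ⟨u, hu, fun j k => hgu k j⟩

/-- A biorthogonal bounded system, summable on a dense set, gives a separable quotient. -/
theorem quotient_of_biorth [CompleteSpace X] (g : ℕ → StrongDual 𝕜 X) (u : ℕ → X)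
    (hu : ∀ k, ‖u k‖ ≤ 8) (hbi : ∀ j k, g j (u k) = if j = k then 1 else 0)
    (D : Set X) (hD : Dense D) (hsum : ∀ x ∈ D, Summable fun k => ‖g k x‖) :
    ∃ M : Submodule 𝕜 X, IsClosed (M : Set X) ∧ TopologicalSpace.SeparableSpace (X ⧸ M) ∧
      ¬ FiniteDimensional 𝕜 (X ⧸ M) := by
  let M : Submodule 𝕜 X := ⨅ k, LinearMap.ker (g k).toLinearMap
  have hM : ∀ x, x ∈ M ↔ ∀ k, g k x = 0 := fun x => by simp [M]
  have hMc : IsClosed (M : Set X) := by
    simp only [M, Submodule.coe_iInf]
    exact isClosed_iInter fun k => ContinuousLinearMap.isClosed_ker (g k)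
  let q : X → X ⧸ M := Submodule.Quotient.mk
  have hq : Continuous q := continuous_quot_mk
  refine ⟨M, hMc, ?_, ?_⟩
  · let T : Submodule 𝕜 (X ⧸ M) := Submodule.span 𝕜 (Set.range fun k => q (u k))
    have hTsep : TopologicalSpace.IsSeparable (closure (T : Set (X ⧸ M))) :=
      ((Set.countable_range _).isSeparable.span (R := 𝕜)).closure
    have hDT : ∀ x ∈ D, q x ∈ closure (T : Set (X ⧸ M)) := by
      intro x hx
      have hs : Summable fun k => g k x • u k := by
        refine Summable.of_norm_bounded ((hsum x hx).mul_right 8) fun k => ?_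
        rw [norm_smul]
        exact mul_le_mul_of_nonneg_left (hu k) (norm_nonneg _)
      have hy : q x = q (∑' k, g k x • u k) := by
        refine (Submodule.Quotient.eq M).2 ((hM _).2 fun j => ?_)
        rw [map_sub, (g j).map_tsum hs, sub_eq_zero]
        rw [tsum_eq_single j fun k hk => by rw [map_smul, hbi, if_neg (Ne.symm hk), smul_zero]]
        simp [hbi]
      rw [hy]
      refine mem_closure_of_tendsto ((hq.tendsto _).comp hs.hasSum.tendsto_sum_nat)
        (Filter.Eventually.of_forall fun n => ?_)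
      change M.mkQ (∑ k ∈ range n, g k x • u k) ∈ T
      rw [map_sum]
      refine sum_mem fun k _ => ?_
      rw [map_smul]
      exact T.smul_mem _ (Submodule.subset_span ⟨k, rfl⟩)
    refine TopologicalSpace.isSeparable_univ_iff.1 (hTsep.mono fun z _ => ?_)
    obtain ⟨x, rfl⟩ := Submodule.Quotient.mk_surjective M z
    exact map_mem_closure hq (hD x) (fun y hy => hDT y hy) |> fun h => by simpa using h
  · intro hfin
    have hind : LinearIndependent 𝕜 (fun k => q (u k)) := by
      rw [linearIndependent_iff']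
      intro s c hc i hi
      have : (∑ k ∈ s, c k • u k) ∈ M := by
        rw [← Submodule.Quotient.mk_eq_zero, ← hc]
        exact map_sum M.mkQ _ _
      have := (hM _).1 this i
      simpa [map_sum, hbi, hi] using this
    exact Finite.not_infinite (hind.finite) inferInstance

end Vale.Agent.P129
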