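import Vale.Agent.P129.Construction

/-!
Every Banach space with a dense set of cardinality less than the covering number of the Lebesgue
null ideal has a separable infinite-dimensional quotient.
-/

namespace Vale.Agent.P129

open Finset MeasureTheory
open scoped ENNReal

variable {𝕜 : Type*} [RCLike 𝕜] {X : Type*} [NormedAddCommGroup X] [NormedSpace 𝕜 X]

/-- The data of one level of the construction. -/
structure Level (𝕜 : Type*) [RCLike 𝕜] (X : Type*) [NormedAddCommGroup X] [NormedSpace 𝕜 X] where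
  m : ℕ
  v : Fin m → StrongDual 𝕜 X
  p : Fin m → ℝ
  S : Finset X

/-- All functionals used so far, and all vectors used so far. -/
abbrev Hist (𝕜 : Type*) [RCLike 𝕜] (X : Type*) [NormedAddCommGroup X] [NormedSpace 𝕜 X] : Type _ :=
  Set (StrongDual 𝕜 X) × Set X

/-- The properties of a level following a given history. -/
def Level.Good (L : Level 𝕜 X) (H : Hist 𝕜 X) (ε : ℝ) : Prop :=
  (∀ i, ‖L.v i‖ = 1) ∧ (∀ i, 0 ≤ L.p i) ∧ ∑ i, L.p i = 1 ∧ (∀ i, ∀ x ∈ H.2, L.v i x = 0) ∧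
    (∀ x : X, ∑ i, L.p i * ‖L.v i x‖ ≤ ε * ‖x‖) ∧ (∀ x ∈ L.S, ‖x‖ ≤ 1) ∧
    ∀ f ∈ Submodule.span 𝕜 (H.1 ∪ Set.range L.v), f = 0 ∨ ∃ x ∈ L.S, ‖f‖ ≤ 2 * ‖f x‖

theorem exists_good (hX : ¬ FiniteDimensional 𝕜 X) (H : Hist 𝕜 X) (h1 : H.1.Finite)
    (h2 : H.2.Finite) {ε : ℝ} (hε : 0 < ε) : ∃ L : Level 𝕜 X, L.Good H ε := by
  obtain ⟨m, v, p, hv, hp, hp1, hk, hs⟩ := exists_level (𝕜 := 𝕜) hX h2.toFinset
    (show 0 < ε / 4 by linarith)
  have : FiniteDimensional 𝕜 (Submodule.span 𝕜 (H.1 ∪ Set.range v)) :=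
    FiniteDimensional.span_of_finite 𝕜 (h1.union (Set.finite_range v))
  obtain ⟨S, hS1, hS2⟩ := exists_norming (Submodule.span 𝕜 (H.1 ∪ Set.range v))
  refine ⟨⟨m, v, p, S⟩, hv, hp, hp1, fun i x hx => hk i x (h2.mem_toFinset.2 hx), fun x => ?_,
    hS1, hS2⟩
  have := hs x
  linarith

/-- A tower of levels. -/
theorem exists_tower (hX : ¬ FiniteDimensional 𝕜 X) :
    ∃ (L : ℕ → Level 𝕜 X) (H : ℕ → Hist 𝕜 X), ∀ n, (L n).Good (H n) ((1 / 2) ^ n) ∧
      (H (n + 1)).1 = (H n).1 ∪ Set.range (L n).v ∧ (H (n + 1)).2 = (H n).2 ∪ ↑(L n).S := by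
  classical
  let T := {H : Hist 𝕜 X // H.1.Finite ∧ H.2.Finite}
  have hstep : ∀ (n : ℕ) (H : T), ∃ L : Level 𝕜 X, L.Good H.1 ((1 / 2) ^ n) := fun n H =>
    exists_good hX H.1 H.2.1 H.2.2 (by positivity)
  choose step hstep using hstep
  let next : ℕ → T → T := fun n H =>
    ⟨(H.1.1 ∪ Set.range (step n H).v, H.1.2 ∪ ↑(step n H).S),
      H.2.1.union (Set.finite_range _), H.2.2.union (Finset.finite_toSet _)⟩
  let seq : ℕ → T := fun n =>
    Nat.rec (motive := fun _ => T) ⟨(∅, ∅), Set.finite_empty, Set.finite_empty⟩ next n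
  exact ⟨fun n => step n (seq n), fun n => (seq n).1, fun n => ⟨hstep n (seq n), rfl, rfl⟩⟩

/-- Subdivision of `(0, 1]` according to a finite probability vector. -/
theorem exists_pick {m : ℕ} (p : Fin m → ℝ) (_hp : ∀ i, 0 ≤ p i) (hp1 : ∑ i, p i = 1) :
    ∃ I : Fin m → Set ℝ, (∀ i, MeasurableSet (I i)) ∧ (∀ i, volume (I i) = ENNReal.ofReal (p i)) ∧
      ∀ t ∈ Set.Ioc (0 : ℝ) 1, ∃ i, t ∈ I i := by
  classical
  let P : ℕ → ℝ := fun n => ∑ i ∈ univ.filter (fun i : Fin m => (i : ℕ) < n), p i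
  have hsucc : ∀ i : Fin m, P ((i : ℕ) + 1) = P i + p i := by
    intro i
    have : univ.filter (fun j : Fin m => (j : ℕ) < (i : ℕ) + 1) =
        insert i (univ.filter (fun j : Fin m => (j : ℕ) < (i : ℕ))) := by
      ext j
      simp [Fin.ext_iff]
      omega
    simp only [P, this]
    rw [sum_insert (by simp), add_comm]
  have hP0 : P 0 = 0 := by simp [P]
  have hPm : P m = 1 := by simp [P, hp1]
  refine ⟨fun i => Set.Ioc (P i) (P i + p i), fun i => measurableSet_Ioc, fun i => by simp,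
    fun t ht => ?_⟩
  have hex : ∃ n, t ≤ P n := ⟨m, hPm ▸ ht.2⟩
  have hn : t ≤ P (Nat.find hex) := Nat.find_spec hex
  have hpos : 0 < Nat.find hex := by
    rcases Nat.eq_zero_or_pos (Nat.find hex) with h | h
    · rw [h, hP0] at hn; linarith [ht.1]
    · exact h
  have hlt : Nat.find hex ≤ m := Nat.find_min' hex (hPm ▸ ht.2)
  let i : Fin m := ⟨Nat.find hex - 1, by omega⟩
  have h1 : ¬ t ≤ P i := Nat.find_min hex (show Nat.find hex - 1 < Nat.find hex by omega)
  refine ⟨i, lt_of_not_ge h1, ?_⟩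
  rw [← hsucc, show (i : ℕ) + 1 = Nat.find hex from Nat.sub_add_cancel hpos]
  exact hn

/-- The covering number of the ideal of Lebesgue null subsets of the real line. -/
noncomputable def covNull : Cardinal.{0} :=
  sInf {κ | ∃ 𝒩 : Set (Set ℝ), Cardinal.mk 𝒩 = κ ∧ (∀ N ∈ 𝒩, volume N = 0) ∧ ⋃₀ 𝒩 = Set.univ}

universe u

/-- Fewer than `covNull` null sets do not cover the line. -/
theorem exists_notMem_of_lt_covNull {ι : Type u} (N : ι → Set ℝ) (hN : ∀ i, volume (N i) = 0)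
    (hι : Cardinal.lift.{0} (Cardinal.mk ι) < Cardinal.lift.{u} covNull) :
    ∃ t, ∀ i, t ∉ N i := by
  by_contra h
  push Not at h
  have hcov : covNull ≤ Cardinal.mk (Set.range N) := csInf_le' ⟨Set.range N, rfl,
    fun S hS => by obtain ⟨i, rfl⟩ := hS; exact hN i,
    Set.eq_univ_of_forall fun t => by
      obtain ⟨i, hi⟩ := h t; exact ⟨N i, ⟨i, rfl⟩, hi⟩⟩
  refine absurd hι (not_lt.2 ?_)
  refine (Cardinal.lift_le.{u}.2 hcov).trans ?_
  exact Cardinal.mk_range_le_lift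

/-- Avoiding null sets inside `(0, 1]`. -/
theorem exists_mem_Ioc_notMem {ι : Type u} (N : ι → Set ℝ) (hne : Nonempty ι)
    (hN : ∀ i, volume (N i ∩ Set.Ioc 0 1) = 0)
    (hι : Cardinal.lift.{0} (Cardinal.mk ι) < Cardinal.lift.{u} covNull) :
    ∃ t ∈ Set.Ioc (0 : ℝ) 1, ∀ i, t ∉ N i := by
  let M : ι → Set ℝ := fun i => ⋃ z : ℤ,
    (fun s : ℝ => s + (z : ℝ)) ⁻¹' ((N i ∩ Set.Ioc 0 1) ∪ {0})
  have hM : ∀ i, volume (M i) = 0 := fun i => measure_iUnion_null fun z => by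
    rw [measure_preimage_add_right]
    exact measure_union_null (hN i) Real.volume_singleton
  obtain ⟨s, hs⟩ := exists_notMem_of_lt_covNull M hM hι
  refine ⟨Int.fract s, ⟨lt_of_le_of_ne (Int.fract_nonneg s) fun h => ?_, (Int.fract_lt_one s).le⟩,
    fun i hi => ?_⟩
  · obtain ⟨i⟩ := hne
    refine hs i (Set.mem_iUnion.2 ⟨-⌊s⌋, Or.inr ?_⟩)
    simp only [Int.cast_neg, Set.mem_singleton_iff, ← sub_eq_add_neg]
    exact h.symm
  · refine hs i (Set.mem_iUnion.2 ⟨-⌊s⌋, ?_⟩)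
    have e : s + ((-⌊s⌋ : ℤ) : ℝ) = Int.fract s := by simp [Int.fract, sub_eq_add_neg]
    rcases (Int.fract_nonneg s).eq_or_lt with h | h
    · exact Or.inr (e.trans h.symm)
    · exact Or.inl (show s + ((-⌊s⌋ : ℤ) : ℝ) ∈ _ from e ▸ ⟨hi, h, (Int.fract_lt_one s).le⟩)

/-- Density below `covNull` implies a separable infinite-dimensional quotient. -/
theorem separable_quotient_of_dense_lt_covNull {X : Type u} [NormedAddCommGroup X]
    [NormedSpace 𝕜 X] [CompleteSpace X] (hX : ¬ FiniteDimensional 𝕜 X) (D : Set X) (hD : Dense D)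
    (hcard : Cardinal.lift.{0} (Cardinal.mk D) < Cardinal.lift.{u} covNull) :
    ∃ M : Submodule 𝕜 X, IsClosed (M : Set X) ∧ TopologicalSpace.SeparableSpace (X ⧸ M) ∧
      ¬ FiniteDimensional 𝕜 (X ⧸ M) := by
  classical
  obtain ⟨L, H, hLH⟩ := exists_tower (𝕜 := 𝕜) hX
  choose I hIm hIv hIc using fun n => exists_pick (L n).p (hLH n).1.2.1 (hLH n).1.2.2.1
  let w : ℕ → X → ℝ → ℝ≥0∞ := fun n x t =>
    ∑ i, (I n i).indicator (fun _ => ENNReal.ofReal ‖(L n).v i x‖) t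
  have hwm : ∀ n x, Measurable (w n x) := fun n x =>
    Finset.measurable_fun_sum _ fun i _ => measurable_const.indicator (hIm n i)
  have hwint : ∀ n x, ∫⁻ t, w n x t ≤ ENNReal.ofReal ((1 / 2) ^ n * ‖x‖) := by
    intro n x
    rw [lintegral_finsetSum _ fun i _ => measurable_const.indicator (hIm n i)]
    simp only [lintegral_indicator_const (hIm n _), hIv]
    have e : ∀ i, ENNReal.ofReal ‖(L n).v i x‖ * ENNReal.ofReal ((L n).p i) =
        ENNReal.ofReal ((L n).p i * ‖(L n).v i x‖) := fun i => by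
      rw [← ENNReal.ofReal_mul (norm_nonneg _), mul_comm]
    simp only [e]
    rw [← ENNReal.ofReal_sum_of_nonneg fun i _ =>
      mul_nonneg ((hLH n).1.2.1 i) (norm_nonneg _)]
    exact ENNReal.ofReal_le_ofReal ((hLH n).1.2.2.2.2.1 x)
  have hnull : ∀ x : D, volume {t | ∑' n, w n (x : X) t = ∞} = 0 := by
    intro x
    have hfin : ∫⁻ t, ∑' n, w n (x : X) t ≠ ∞ := by
      rw [lintegral_tsum fun n => (hwm n x).aemeasurable]
      refine ne_top_of_le_ne_top ?_ (ENNReal.tsum_le_tsum fun n => hwint n x)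
      have hs : Summable fun n : ℕ => (1 / 2 : ℝ) ^ n * ‖(x : X)‖ :=
        summable_geometric_two.mul_right _
      rw [← ENNReal.ofReal_tsum_of_nonneg (fun n => by positivity) hs]
      exact ENNReal.ofReal_ne_top
    have := ae_lt_top (Measurable.tsum fun n => hwm n (x : X)) hfin
    rw [ae_iff] at this
    simpa [lt_top_iff_ne_top] using this
  have hne : Nonempty D := by
    obtain ⟨x, hx⟩ := hD.nonempty
    exact ⟨⟨x, hx⟩⟩
  obtain ⟨t, ht, htN⟩ := exists_mem_Ioc_notMem _ hne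
    (fun x : D => measure_mono_null Set.inter_subset_left (hnull x)) hcard
  choose idx hidx using fun n => hIc n t ht
  let g : ℕ → StrongDual 𝕜 X := fun n => (L n).v (idx n)
  have hsub2 : ∀ n k, n < k → (↑(L n).S : Set X) ⊆ (H k).2 := by
    intro n k hk
    induction k, hk using Nat.le_induction with
    | base => rw [(hLH n).2.2]; exact Set.subset_union_right
    | succ k _ ih => rw [(hLH k).2.2]; exact ih.trans Set.subset_union_left
  have hsub1 : ∀ n i, i < n → g i ∈ (H n).1 := by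
    intro n i hi
    induction n, hi using Nat.le_induction with
    | base => rw [(hLH i).2.1]; exact Or.inr ⟨idx i, rfl⟩
    | succ k _ ih => rw [(hLH k).2.1]; exact Or.inl ih
  obtain ⟨u, hu, hbi⟩ := exists_biorth g (fun n => (L n).S) (fun n => (hLH n).1.1 _)
    (fun n => (hLH n).1.2.2.2.2.2.1)
    (fun n i hni x hx => (hLH i).1.2.2.2.1 _ x (hsub2 n i hni hx))
    (fun n a => (hLH n).1.2.2.2.2.2.2 _ (Submodule.sum_mem _ fun i hi => by
      refine Submodule.smul_mem _ _ (Submodule.subset_span ?_)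
      rcases Nat.lt_succ_iff_lt_or_eq.1 (mem_range.1 hi) with h | h
      · exact Or.inl (hsub1 n i h)
      · exact Or.inr ⟨idx n, h ▸ rfl⟩))
  refine quotient_of_biorth g u hu hbi D hD fun x hx => ?_
  have hlt : ∑' n, w n x t ≠ ∞ := htN ⟨x, hx⟩
  have hle : ∀ n, ENNReal.ofReal ‖g n x‖ ≤ w n x t := fun n => by
    refine le_of_eq_of_le ?_ (Finset.single_le_sum
      (f := fun i => (I n i).indicator (fun _ => ENNReal.ofReal ‖(L n).v i x‖) t)
      (fun _ _ => zero_le) (mem_univ (idx n)))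
    simp [Set.indicator_of_mem (hidx n), g]
  have h2 := ENNReal.summable_toReal (ne_top_of_le_ne_top hlt (ENNReal.tsum_le_tsum hle))
  simpa [ENNReal.toReal_ofReal (norm_nonneg _)] using h2

end Vale.Agent.P129
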