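import Vale.Agent.P129.Construction

/-!
Unit functionals vanishing on a given finite set whose values are eventually small at every point.
This is the substitute for the theorem of Josefson and Nissenzweig: otherwise signed sums along a
subsequence of a separated sequence are uniformly large, a binary tree of points separates their
subsequences, and Bessel averages along the tree tend to zero at every point but not in norm.
-/

namespace Vale.Agent.P129

open Filter Finset Topology

section Ramsey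

variable {E : Type*} [AddCommGroup E]

/-- A vector with the sign given by a Boolean. -/
def sg (b : Bool) (v : E) : E := if b then -v else v

/-- The signed sum along a pattern. -/
def signSum (σ : List Bool) (f : ℕ → E) : E := ∑ i ∈ range σ.length, sg (σ.getD i false) (f i)

theorem signSum_cons (b : Bool) (σ : List Bool) (f : ℕ → E) :
    signSum (b :: σ) f = sg b (f 0) + signSum σ (fun i => f (i + 1)) := by
  rw [signSum, List.length_cons, sum_range_succ', add_comm]
  simp [signSum]

/-- `P` holds at almost all signed sums following the pattern. -/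
def AlmostAll (g : ℕ → E) (P : E → Prop) (U : Ultrafilter ℕ) : List Bool → E → Prop
  | [], a => P a
  | b :: σ, a => ∀ᶠ n in (U : Filter ℕ), AlmostAll g P U σ (a + sg b (g n))

theorem almostAll_not {g : ℕ → E} {P : E → Prop} {U : Ultrafilter ℕ} :
    ∀ {σ : List Bool} {a : E}, ¬ AlmostAll g P U σ a → AlmostAll g (fun a => ¬ P a) U σ a
  | [], _, h => h
  | _ :: _, _, h => (Ultrafilter.eventually_not.2 h).mono fun _ hn => almostAll_not hn

/-- One subsequence has the property for all increasing tuples and all prescribed patterns. -/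
theorem exists_ramsey (g : ℕ → E) (P : ℕ → E → Prop) (U : Ultrafilter ℕ)
    (hU : (U : Filter ℕ) ≤ atTop) (R : ℕ → Finset (List Bool))
    (hR : ∀ k, ∀ σ ∈ R k, AlmostAll g (P σ.length) U σ 0) :
    ∃ N : ℕ → ℕ, StrictMono N ∧ ∀ k, ∀ σ ∈ R k, ∀ q : ℕ → ℕ,
      (∀ i, i < σ.length → k ≤ q i) → (∀ i, i + 1 < σ.length → q i < q (i + 1)) →
      P σ.length (signSum σ fun i => g (N (q i))) := by
  classical
  have hpick : ∀ (S : Finset (ℕ × List Bool × E)) (b : ℕ), ∃ n, b ≤ n ∧ ∀ p ∈ S,
      ∀ c σ, p.2.1 = c :: σ → AlmostAll g (P p.1) U p.2.1 p.2.2 →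
        AlmostAll g (P p.1) U σ (p.2.2 + sg c (g n)) := by
    intro S b
    have h : ∀ p ∈ S, ∀ᶠ n in (U : Filter ℕ), ∀ c σ, p.2.1 = c :: σ →
        AlmostAll g (P p.1) U p.2.1 p.2.2 → AlmostAll g (P p.1) U σ (p.2.2 + sg c (g n)) := by
      rintro ⟨l, _ | ⟨c, σ⟩, a⟩ -
      · exact Eventually.of_forall fun n c σ h => by simp at h
      · by_cases ha : AlmostAll g (P l) U (c :: σ) a
        · filter_upwards [ha] with n hn c' σ' h _
          obtain ⟨rfl, rfl⟩ := List.cons.inj h
          exact hn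
        · exact Eventually.of_forall fun n c' σ' _ h => absurd h ha
    exact (((eventually_ge_atTop b).filter_mono hU).and (S.eventually_all.2 h)).exists
  choose pick hpick1 hpick2 using hpick
  let root : ℕ → Finset (ℕ × List Bool × E) := fun k =>
    (R k).image fun σ => (σ.length, σ, 0)
  let kids : Finset (ℕ × List Bool × E) → ℕ → Finset (ℕ × List Bool × E) := fun S n =>
    S.image fun p => (p.1, p.2.1.tail, p.2.2 + sg (p.2.1.headD false) (g n))
  let st : ℕ → Finset (ℕ × List Bool × E) × ℕ := fun k =>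
    Nat.rec (motive := fun _ => Finset (ℕ × List Bool × E) × ℕ) (root 0, 0)
      (fun k s => (s.1 ∪ kids s.1 (pick s.1 s.2) ∪ root (k + 1), pick s.1 s.2 + 1)) k
  let N : ℕ → ℕ := fun k => pick (st k).1 (st k).2
  have hN : StrictMono N := strictMono_nat_of_lt_succ fun k => by
    have := hpick1 (st (k + 1)).1 (st (k + 1)).2
    exact this
  have hmono : ∀ a b, a ≤ b → (st a).1 ⊆ (st b).1 := fun a b h => by
    induction b, h using Nat.le_induction with
    | base => exact Subset.refl _
    | succ c _ ih => exact ih.trans (subset_union_left.trans subset_union_left)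
  refine ⟨N, hN, fun k σ hσ q hq1 hq2 => ?_⟩
  suffices h : ∀ (σ : List Bool) (l : ℕ) (a : E) (m : ℕ) (q : ℕ → ℕ), (l, σ, a) ∈ (st m).1 →
      AlmostAll g (P l) U σ a → (∀ i, i < σ.length → m ≤ q i) →
      (∀ i, i + 1 < σ.length → q i < q (i + 1)) →
      P l (a + signSum σ fun i => g (N (q i))) by
    have hroot : (σ.length, σ, (0 : E)) ∈ root k := mem_image_of_mem _ hσ
    have hst : (σ.length, σ, (0 : E)) ∈ (st k).1 := by
      cases k with
      | zero => exact hroot
      | succ k => exact mem_union_right _ hroot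
    simpa using h σ σ.length 0 k q hst (hR k σ hσ) hq1 hq2
  intro σ
  induction σ with
  | nil => intro l a m q _ ha _ _; simpa [signSum, AlmostAll] using ha
  | cons b σ ih =>
    intro l a m q hmem ha hq1 hq2
    have hmem' : (l, b :: σ, a) ∈ (st (q 0)).1 := hmono _ _ (hq1 0 (by simp)) hmem
    have hkid : (l, σ, a + sg b (g (N (q 0)))) ∈ (st (q 0 + 1)).1 :=
      mem_union_left _ (mem_union_right _ (mem_image.2 ⟨_, hmem', rfl⟩))
    have := ih l _ (q 0 + 1) (fun i => q (i + 1)) hkid (hpick2 _ _ _ hmem' b σ rfl ha)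
      (fun i hi => by
        have hlt : ∀ j, j ≤ i → q 0 < q (j + 1) := by
          intro j
          induction j with
          | zero => intro _; exact hq2 0 (by simp; omega)
          | succ j ihj =>
            intro hj
            exact (ihj (by omega)).trans (hq2 (j + 1) (by simp; omega))
        exact hlt i le_rfl)
      (fun i hi => hq2 (i + 1) (by simpa using hi))
    rwa [signSum_cons, ← add_assoc]

end Ramsey

universe u v

variable {𝕜 : Type v} [RCLike 𝕜] {X : Type u} [NormedAddCommGroup X] [NormedSpace 𝕜 X]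

theorem sg_apply (b : Bool) (f : StrongDual 𝕜 X) (x : X) : (sg b f) x = sg b (f x) := by
  cases b <;> simp [sg]

theorem re_sg (b : Bool) (z : 𝕜) : RCLike.re (sg b z) = sg b (RCLike.re z) := by
  cases b <;> simp [sg]

theorem norm_sg {E : Type*} [SeminormedAddCommGroup E] (b : Bool) (v : E) : ‖sg b v‖ = ‖v‖ := by
  cases b <;> simp [sg]

theorem re_apply_le (f : StrongDual 𝕜 X) (x : X) : |RCLike.re (f x)| ≤ ‖f‖ * ‖x‖ :=
  (RCLike.abs_re_le_norm _).trans (f.le_opNorm x)

theorem sg_mem {W : Submodule ℝ (StrongDual 𝕜 X)} {f : StrongDual 𝕜 X} (hf : f ∈ W) (b : Bool) :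
    sg b f ∈ W := by
  cases b
  · simpa [sg] using hf
  · simpa [sg] using W.neg_mem hf

/-- The averages over a binary tree satisfy Bessel's inequality. -/
theorem sum_sq_signs_le (φ : ℕ → 𝕜) : ∀ K : ℕ,
    ∑ i ∈ range K, ‖∑ j ∈ range (2 ^ K), sg (Nat.testBit j i) (φ j)‖ ^ 2 +
      ‖∑ j ∈ range (2 ^ K), φ j‖ ^ 2 ≤ 2 ^ K * ∑ j ∈ range (2 ^ K), ‖φ j‖ ^ 2 := by
  intro K
  induction K generalizing φ with
  | zero => simp
  | succ K ih =>
    have hA := ih φ
    have hB := ih fun j => φ (2 ^ K + j)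
    have e : 2 ^ (K + 1) = 2 ^ K + 2 ^ K := by rw [pow_succ]; ring
    set A := ∑ j ∈ range (2 ^ K), φ j
    set B := ∑ j ∈ range (2 ^ K), φ (2 ^ K + j)
    have hpar : ∀ a b : 𝕜, ‖a - b‖ ^ 2 + ‖a + b‖ ^ 2 = 2 * ‖a‖ ^ 2 + 2 * ‖b‖ ^ 2 := fun a b => by
      simp only [RCLike.norm_sq_eq_def, map_sub, map_add]; ring
    have hi : ∀ i ∈ range K,
        ‖∑ j ∈ range (2 ^ K + 2 ^ K), sg (Nat.testBit j i) (φ j)‖ ^ 2 ≤
          2 * ‖∑ j ∈ range (2 ^ K), sg (Nat.testBit j i) (φ j)‖ ^ 2 +
          2 * ‖∑ j ∈ range (2 ^ K), sg (Nat.testBit j i) (φ (2 ^ K + j))‖ ^ 2 := by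
      intro i hi
      rw [sum_range_add]
      have : ∀ j, Nat.testBit (2 ^ K + j) i = Nat.testBit j i := fun j =>
        Nat.testBit_two_pow_add_gt (mem_range.1 hi) j
      simp only [this]
      have h := norm_add_le (∑ j ∈ range (2 ^ K), sg (Nat.testBit j i) (φ j))
        (∑ j ∈ range (2 ^ K), sg (Nat.testBit j i) (φ (2 ^ K + j)))
      nlinarith [sq_nonneg (‖∑ j ∈ range (2 ^ K), sg (Nat.testBit j i) (φ j)‖ -
        ‖∑ j ∈ range (2 ^ K), sg (Nat.testBit j i) (φ (2 ^ K + j))‖), norm_nonneg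
        (∑ j ∈ range (2 ^ K), sg (Nat.testBit j i) (φ j) +
          ∑ j ∈ range (2 ^ K), sg (Nat.testBit j i) (φ (2 ^ K + j)))]
    have hlast : ∑ j ∈ range (2 ^ K + 2 ^ K), sg (Nat.testBit j K) (φ j) = A - B := by
      rw [sum_range_add, sub_eq_add_neg, ← sum_neg_distrib]
      congr 1 <;> refine sum_congr rfl fun j hj => ?_
      · simp [sg, Nat.testBit_lt_two_pow (mem_range.1 hj)]
      · simp [sg, Nat.testBit_two_pow_add_eq, Nat.testBit_lt_two_pow (mem_range.1 hj)]
    have hfull : ∑ j ∈ range (2 ^ K + 2 ^ K), φ j = A + B := sum_range_add _ _ _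
    rw [e, sum_range_succ, hlast, hfull, sum_range_add (fun j => ‖φ j‖ ^ 2)]
    have hs := sum_le_sum hi
    rw [sum_add_distrib, ← mul_sum, ← mul_sum] at hs
    have := hpar A B
    rw [pow_succ (2 : ℝ) K]
    linarith

/-- Points separating finitely many subsequences at every stage of a binary tree. -/
theorem exists_tree (G : ℕ → StrongDual 𝕜 X) {R η ε : ℝ} (hη : 0 < η) (hR : ∀ n, ‖G n‖ ≤ R)
    (hε : 0 < ε)
    (hbig : ∀ σ : List Bool, 1 ≤ σ.length → ∀ q : ℕ → ℕ,
      (∀ i, i < σ.length → σ.length ≤ q i) → (∀ i, i + 1 < σ.length → q i < q (i + 1)) →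
      η * σ.length < ‖signSum σ fun i => G (q i)‖)
    {W : Submodule ℝ (StrongDual 𝕜 X)} (hG : ∀ n, G n ∈ W)
    (hbad : ∀ h : ℕ → StrongDual 𝕜 X, (∀ n, h n ∈ W) → ∀ r > 0, (∀ n, r ≤ ‖h n‖) →
      ∃ x : X, ‖x‖ ≤ 1 ∧ ∃ᶠ n in atTop, ε * r < RCLike.re (h n x)) :
    ∃ x : ℕ → X, (∀ i, ‖x i‖ ≤ 1) ∧ ∀ K, ∃ q : ℕ → ℕ, ∀ i < K,
      ε * η / 2 * 2 ^ K ≤ ∑ j ∈ range (2 ^ K), sg (Nat.testBit j i) (RCLike.re (G (q j) (x i))) := by
  classical
  let Inv : ℕ → (ℕ → ℕ → ℕ) × (ℕ → X) → Prop := fun k s =>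
    (∀ i, ‖s.2 i‖ ≤ 1) ∧
    (∀ n n' j j', j < 2 ^ k → j' < 2 ^ k → (n < n' ∨ n = n' ∧ j < j') →
      s.1 n j < s.1 n' j') ∧
    ∀ i < k, ∃ L : ℕ → ℝ,
      (∀ j < 2 ^ k, Tendsto (fun n => RCLike.re (G (s.1 n j) (s.2 i))) atTop (𝓝 (L j))) ∧
      ε * η * 2 ^ k ≤ ∑ j ∈ range (2 ^ k), sg (Nat.testBit j i) (L j)
  have step : ∀ k s, Inv k s → ∃ s', Inv (k + 1) s' ∧ ∀ i < k, s'.2 i = s.2 i := by
    rintro k ⟨q, x⟩ ⟨hx, hsep, hL⟩
    have e : 2 ^ (k + 1) = 2 ^ k + 2 ^ k := by rw [pow_succ]; ring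
    have hM : 0 < 2 ^ k := Nat.two_pow_pos k
    let q1 : ℕ → ℕ → ℕ := fun n j => if j < 2 ^ k then q (2 * (n + 2 ^ (k + 1))) j
      else q (2 * (n + 2 ^ (k + 1)) + 1) (j - 2 ^ k)
    have hsep1 : ∀ n n' j j', j < 2 ^ (k + 1) → j' < 2 ^ (k + 1) →
        (n < n' ∨ n = n' ∧ j < j') → q1 n j < q1 n' j' := by
      intro n n' j j' hj hj' h
      simp only [q1]
      split_ifs <;> refine hsep _ _ _ _ (by omega) (by omega) ?_ <;>
        rcases h with h | ⟨h, h'⟩ <;> first
          | exact Or.inl (by omega)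
          | exact Or.inr ⟨by omega, by omega⟩
    have hge : ∀ n j, j < 2 ^ (k + 1) → n + 2 ^ (k + 1) ≤ q1 n j := by
      intro n j hj
      have hq : ∀ m j, j < 2 ^ k → m ≤ q m j := by
        intro m j hj
        induction m with
        | zero => exact Nat.zero_le _
        | succ m ih =>
          have := hsep m (m + 1) j j hj hj (Or.inl (Nat.lt_succ_self m))
          simp only at this
          omega
      simp only [q1]
      split_ifs with h
      · have := hq (2 * (n + 2 ^ (k + 1))) j h; omega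
      · have := hq (2 * (n + 2 ^ (k + 1)) + 1) (j - 2 ^ k) (by omega); omega
    let σ : List Bool := List.ofFn fun j : Fin (2 ^ (k + 1)) => Nat.testBit j k
    have hσl : σ.length = 2 ^ (k + 1) := List.length_ofFn
    let h : ℕ → StrongDual 𝕜 X := fun n => signSum σ fun j => G (q1 n j)
    have hh : ∀ n, h n = ∑ j ∈ range (2 ^ (k + 1)), sg (Nat.testBit j k) (G (q1 n j)) := by
      intro n
      simp only [h, signSum, hσl]
      refine sum_congr rfl fun j hj => ?_
      rw [List.getD_eq_getElem?_getD, List.getElem?_ofFn, dif_pos (mem_range.1 hj)]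
      rfl
    have hnorm : ∀ n, η * (2 : ℝ) ^ (k + 1) ≤ ‖h n‖ := by
      intro n
      have := hbig σ (by rw [hσl]; exact Nat.two_pow_pos _) (q1 n)
        (fun i hi => by rw [hσl] at hi ⊢; have := hge n i hi; omega)
        (fun i hi => by
          rw [hσl] at hi
          exact hsep1 _ _ _ _ (by omega) hi (Or.inr ⟨rfl, Nat.lt_succ_self i⟩))
      rw [hσl] at this
      push_cast at this
      exact this.le
    obtain ⟨z, hz, hfr⟩ := hbad h (fun n => by
      rw [hh]
      exact Submodule.sum_mem _ fun j _ => sg_mem (hG _) _) _ (by positivity) hnorm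
    obtain ⟨ψ, hψ, hψz⟩ := extraction_of_frequently_atTop hfr
    obtain ⟨Lz, -, φ, hφ, hlim⟩ := tendsto_subseq_of_bounded
      (Metric.isBounded_closedBall (x := (0 : Fin (2 ^ (k + 1)) → ℝ)) (r := R))
      (x := fun n => fun j : Fin (2 ^ (k + 1)) => RCLike.re (G (q1 (ψ n) j) z)) fun n => by
        rw [mem_closedBall_zero_iff, pi_norm_le_iff_of_nonneg ((norm_nonneg _).trans (hR 0))]
        exact fun j => (re_apply_le _ _).trans
          ((mul_le_of_le_one_right (norm_nonneg _) hz).trans (hR _))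
    refine ⟨(fun n j => q1 (ψ (φ n)) j, Function.update x k z),
      ⟨fun i => ?_, fun n n' j j' hj hj' h' => hsep1 _ _ _ _ hj hj' ?_, fun i hi => ?_⟩,
      fun i hi => Function.update_of_ne hi.ne _ _⟩
    · rcases eq_or_ne i k with rfl | hne
      · simpa using hz
      · simpa [Function.update_of_ne hne] using hx i
    · exact h'.imp (fun h'' => (hψ.comp hφ) h'') fun h'' => ⟨by rw [h''.1], h''.2⟩
    rcases Nat.lt_succ_iff_lt_or_eq.1 hi with hik | rfl
    · obtain ⟨L, hL1, hL2⟩ := hL i hik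
      refine ⟨fun j => if j < 2 ^ k then L j else L (j - 2 ^ k), fun j hj => ?_, ?_⟩
      · have hT : Tendsto (fun n => ψ (φ n) + 2 ^ (k + 1)) atTop atTop :=
          tendsto_atTop_mono (fun n => Nat.le_add_right _ _) (hψ.comp hφ).tendsto_atTop
        simp only [q1, Function.update_of_ne hik.ne]
        split_ifs with hjk
        · exact (hL1 j hjk).comp (tendsto_atTop_mono (fun n => by omega) hT)
        · exact (hL1 (j - 2 ^ k) (by omega)).comp (tendsto_atTop_mono (fun n => by omega) hT)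
      · rw [e, sum_range_add, pow_succ, ← mul_assoc, mul_two]
        refine le_of_le_of_eq (add_le_add hL2 hL2) ?_
        congr 1 <;> refine sum_congr rfl fun j hj => ?_
        · simp [mem_range.1 hj]
        · simp [Nat.testBit_two_pow_add_gt hik]
    · let L : ℕ → ℝ := fun j => if h : j < 2 ^ (i + 1) then Lz ⟨j, h⟩ else 0
      have hL1 : ∀ j < 2 ^ (i + 1),
          Tendsto (fun n => RCLike.re (G (q1 (ψ (φ n)) j) z)) atTop (𝓝 (L j)) := fun j hj => by
        simpa [L, hj, Function.comp_def] using tendsto_pi_nhds.1 hlim ⟨j, hj⟩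
      refine ⟨L, fun j hj => by simpa using hL1 j hj, ?_⟩
      rw [mul_assoc]
      have ht : Tendsto (fun n => ∑ j ∈ range (2 ^ (i + 1)),
          sg (Nat.testBit j i) (RCLike.re (G (q1 (ψ (φ n)) j) z))) atTop
          (𝓝 (∑ j ∈ range (2 ^ (i + 1)), sg (Nat.testBit j i) (L j))) :=
        tendsto_finsetSum _ fun j hj => by
          cases Nat.testBit j i
          · simpa [sg] using hL1 j (mem_range.1 hj)
          · simpa [sg] using (hL1 j (mem_range.1 hj)).neg
      refine ge_of_tendsto ht (Eventually.of_forall fun n => le_of_le_of_eq (hψz (φ n)).le ?_)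
      rw [hh]
      simp [_root_.sum_apply, sg_apply, re_sg]
  choose next hnext1 hnext2 using step
  let S : ∀ k, {s // Inv k s} := fun k => Nat.rec (motive := fun k => {s // Inv k s})
    ⟨(fun n _ => n, fun _ => 0), fun i => by simp, fun n n' j j' hj hj' h => by
      simp at hj hj' ⊢; omega, fun i hi => absurd hi (Nat.not_lt_zero i)⟩
    (fun k s => ⟨next k s.1 s.2, hnext1 k s.1 s.2⟩) k
  have hcoh : ∀ K i, i < K → (S K).1.2 i = (S (i + 1)).1.2 i := by
    intro K i hi
    induction K, hi using Nat.le_induction with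
    | base => rfl
    | succ K hK ih => exact (hnext2 K _ (S K).2 i hK).trans ih
  refine ⟨fun i => (S (i + 1)).1.2 i, fun i => (S (i + 1)).2.1 i, fun K => ?_⟩
  have hev : ∀ i ∈ range K, ∀ᶠ n in atTop, ε * η / 2 * 2 ^ K ≤
      ∑ j ∈ range (2 ^ K), sg (Nat.testBit j i)
        (RCLike.re (G ((S K).1.1 n j) ((S (i + 1)).1.2 i))) := by
    intro i hi
    obtain ⟨L, hL1, hL2⟩ := (S K).2.2.2 i (mem_range.1 hi)
    rw [← hcoh K i (mem_range.1 hi)]
    refine (tendsto_finsetSum _ fun j hj => ?_).eventually_const_le (lt_of_lt_of_le ?_ hL2)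
    · cases Nat.testBit j i
      · simpa [sg] using hL1 j (mem_range.1 hj)
      · simpa [sg] using (hL1 j (mem_range.1 hj)).neg
    · have : 0 < ε * η * 2 ^ K := by positivity
      linarith
  obtain ⟨n, hn⟩ := ((range K).eventually_all.2 hev).exists
  exact ⟨(S K).1.1 n, fun i hi => hn i (mem_range.2 hi)⟩

/-- A real subspace of functionals without small oscillation gives a contradiction. -/
theorem false_of_bad {W : Submodule ℝ (StrongDual 𝕜 X)} (hW : ¬ FiniteDimensional ℝ W)
    (hWc : ∀ (F : ℕ → StrongDual 𝕜 X) (f : StrongDual 𝕜 X) (U : Ultrafilter ℕ), (∀ n, F n ∈ W) →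
      (∀ x, Tendsto (fun n => F n x) (U : Filter ℕ) (𝓝 (f x))) → f ∈ W)
    {ε : ℝ} (hε : 0 < ε)
    (hbad : ∀ h : ℕ → StrongDual 𝕜 X, (∀ n, h n ∈ W) → ∀ r > 0, (∀ n, r ≤ ‖h n‖) →
      ∃ x : X, ‖x‖ ≤ 1 ∧ ∃ᶠ n in atTop, ε * r < RCLike.re (h n x)) : False := by
  classical
  obtain ⟨R, G0, -, hG0R, hsep⟩ := exists_seq_norm_le_one_le_norm_sub (𝕜 := ℝ) (E := W) hW
  let U : Ultrafilter ℕ := Filter.hyperfilter ℕ
  have hU : (U : Filter ℕ) ≤ atTop := Nat.cofinite_eq_atTop ▸ Filter.hyperfilter_le_cofinite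
  set G : ℕ → StrongDual 𝕜 X := fun n => (G0 n : StrongDual 𝕜 X) with hGdef
  have hGR : ∀ n, ‖G n‖ ≤ R := fun n => hG0R n
  have hGW : ∀ n, G n ∈ W := fun n => (G0 n).2
  set η : ℝ := ε / 4 with hη
  have hη0 : 0 < η := by positivity
  -- no pattern has small sums almost always
  have hlarge : ∀ σ : List Bool, 1 ≤ σ.length →
      AlmostAll G (fun a => ¬ ‖a‖ ≤ η * σ.length) U σ 0 := by
    intro σ hσ
    refine almostAll_not fun hsmall => ?_
    obtain ⟨N, hN, hP⟩ := exists_ramsey G (fun l a => ‖a‖ ≤ η * l) U hU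
      (fun k => if k = 0 then {σ} else ∅) fun k τ hτ => by
      split_ifs at hτ with hk
      · rw [Finset.mem_singleton.1 hτ]; exact hsmall
      · simp at hτ
    obtain ⟨x, hx, hfr⟩ := hbad (fun i => G (N (2 * i)) - G (N (2 * i + 1)))
      (fun i => W.sub_mem (hGW _) (hGW _)) 1 one_pos fun i => by
        simpa [hGdef] using hsep (hN.injective.ne (show 2 * i ≠ 2 * i + 1 by omega))
    obtain ⟨ψ, hψ, hψx⟩ := extraction_of_frequently_atTop hfr
    have hb : ∀ n, |RCLike.re (G n x)| ≤ R := fun n => (re_apply_le _ _).trans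
      ((mul_le_of_le_one_right (norm_nonneg _) hx).trans (hGR n))
    obtain ⟨⟨A, B⟩, -, φ, hφ, hlim⟩ := tendsto_subseq_of_bounded
      (Metric.isBounded_closedBall (x := (0 : ℝ × ℝ)) (r := R))
      (x := fun n => (RCLike.re (G (N (2 * ψ n)) x), RCLike.re (G (N (2 * ψ n + 1)) x))) fun n => by
        rw [mem_closedBall_zero_iff, Prod.norm_def]
        exact max_le (hb _) (hb _)
    rw [Prod.tendsto_iff] at hlim
    have hAB : ε ≤ A - B :=
      ge_of_tendsto (hlim.1.sub hlim.2) (Eventually.of_forall fun n => by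
        have := hψx (φ n)
        simp only [sub_apply, map_sub, mul_one] at this
        exact this.le)
    have key : ∀ c : Bool, |∑ i ∈ range σ.length,
        sg (σ.getD i false) (if σ.getD i false = c then A else B)| ≤ η * σ.length := by
      intro c
      let q : ℕ → ℕ → ℕ := fun m i =>
        2 * ψ (φ (m + i)) + if σ.getD i false = c then 0 else 1
      have hm : ∀ i, Tendsto (fun m => m + i) atTop atTop := fun i =>
        tendsto_atTop_mono (fun m => Nat.le_add_right m i) tendsto_id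
      have ht : Tendsto (fun m => ∑ i ∈ range σ.length,
          sg (σ.getD i false) (RCLike.re (G (N (q m i)) x))) atTop (𝓝 (∑ i ∈ range σ.length,
          sg (σ.getD i false) (if σ.getD i false = c then A else B))) :=
        tendsto_finsetSum _ fun i _ => by
          by_cases hc : σ.getD i false = c
          · have hlim1 := hlim.1.comp (hm i)
            simp only [Function.comp_def] at hlim1
            simp only [q, if_pos hc, add_zero]
            cases σ.getD i false
            · simpa [sg] using hlim1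
            · simpa [sg] using hlim1.neg
          · have hlim2 := hlim.2.comp (hm i)
            simp only [Function.comp_def] at hlim2
            simp only [q, if_neg hc]
            cases σ.getD i false
            · simpa [sg] using hlim2
            · simpa [sg] using hlim2.neg
      refine le_of_tendsto ht.abs (Eventually.of_forall fun m => ?_)
      have hs := hP 0 σ (by simp) (q m) (fun i _ => Nat.zero_le _) fun i _ => by
        have := (hψ.comp hφ) (show m + i < m + (i + 1) by omega)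
        simp only [q, Function.comp_apply] at this ⊢
        split_ifs <;> omega
      have h1 := re_apply_le (signSum σ fun i => G (N (q m i))) x
      have h2 := (mul_le_of_le_one_right (norm_nonneg _) hx).trans hs
      simp [signSum, _root_.sum_apply, sg_apply, re_sg] at h1
      exact h1.trans (by simpa [signSum] using h2)
    have hd : ∑ i ∈ range σ.length,
        sg (σ.getD i false) (if σ.getD i false = false then A else B) -
        ∑ i ∈ range σ.length, sg (σ.getD i false) (if σ.getD i false = true then A else B) =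
        σ.length * (A - B) := by
      rw [← sum_sub_distrib]
      have : ∀ i ∈ range σ.length,
          sg (σ.getD i false) (if σ.getD i false = false then A else B) -
            sg (σ.getD i false) (if σ.getD i false = true then A else B) = A - B := fun i _ => by
        cases σ.getD i false
        · simp [sg]
        · simp [sg]; ring
      rw [sum_congr rfl this, sum_const, card_range, nsmul_eq_mul]
    have h1 := abs_le.1 (key false)
    have h2 := abs_le.1 (key true)
    have hl : (1 : ℝ) ≤ σ.length := by exact_mod_cast hσ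
    nlinarith [mul_le_mul_of_nonneg_left hAB (show (0 : ℝ) ≤ σ.length by positivity)]
  -- a subsequence with uniformly large sums
  obtain ⟨N, hN, hP⟩ := exists_ramsey G (fun l a => ¬ ‖a‖ ≤ η * l) U hU
    (fun k => if k = 0 then ∅ else (univ : Finset (Fin k → Bool)).image List.ofFn) fun k σ hσ => by
      split_ifs at hσ with hk
      · simp at hσ
      · obtain ⟨f, -, rfl⟩ := mem_image.1 hσ
        exact hlarge _ (by simp; omega)
  obtain ⟨x, hx, hT⟩ := exists_tree (fun n => G (N n)) hη0 (fun n => hGR _) hε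
    (fun σ hσ q hq1 hq2 => by
      refine not_le.1 (hP σ.length σ ?_ q hq1 hq2)
      rw [if_neg (by omega)]
      exact mem_image.2 ⟨fun i => σ[(i : ℕ)], mem_univ _, List.ofFn_getElem⟩)
    (fun n => hGW _) hbad
  choose q hq using hT
  let F : ℕ → ℕ → StrongDual 𝕜 X := fun K i => ((2 : ℝ) ^ K)⁻¹ •
    ∑ j ∈ range (2 ^ K), sg (Nat.testBit j i) (G (N (q K j)))
  have hFW : ∀ K i, F K i ∈ W := fun K i =>
    W.smul_mem _ (W.sum_mem fun j _ => sg_mem (hGW _) _)
  have hFn : ∀ K i, ‖F K i‖ ≤ R := fun K i => by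
    rw [norm_smul, Real.norm_eq_abs, abs_of_nonneg (by positivity), inv_mul_le_iff₀ (by positivity)]
    refine (norm_sum_le _ _).trans ?_
    simp only [norm_sg]
    refine (sum_le_card_nsmul _ _ _ fun j _ => hGR _).trans (le_of_eq ?_)
    rw [card_range, nsmul_eq_mul]; push_cast; rfl
  have hlim : ∀ i, ∃ f : StrongDual 𝕜 X,
      ∀ x, Tendsto (fun K => F K i x) (U : Filter ℕ) (𝓝 (f x)) := by
    intro i
    obtain ⟨f, -, hf⟩ := (WeakDual.isCompact_closedBall (𝕜 := 𝕜) (0 : StrongDual 𝕜 X)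
      R).ultrafilter_le_nhds (U.map fun K => StrongDual.toWeakDual (F K i))
      (le_principal_iff.2 (Filter.mem_map.2 (Filter.univ_mem' fun K => by simpa using hFn K i)))
    exact ⟨WeakDual.toStrongDual f, fun x =>
      ((WeakDual.eval_continuous x).tendsto f).comp hf⟩
  choose f hf using hlim
  have hsum : ∀ n y, ∑ i ∈ range n, ‖f i y‖ ^ 2 ≤ (R * ‖y‖) ^ 2 := by
    intro n y
    refine le_of_tendsto (tendsto_finsetSum _ fun i _ => ((hf i y).norm.pow 2))
      (((eventually_ge_atTop n).filter_mono hU).mono fun K hK => ?_)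
    refine (sum_le_sum_of_subset_of_nonneg (range_mono hK) fun i _ _ => sq_nonneg _).trans ?_
    have hB := sum_sq_signs_le (fun j => G (N (q K j)) y) K
    have h2 : ∑ j ∈ range (2 ^ K), ‖G (N (q K j)) y‖ ^ 2 ≤ 2 ^ K * (R * ‖y‖) ^ 2 := by
      refine (sum_le_card_nsmul _ _ _ fun j _ => pow_le_pow_left₀ (norm_nonneg _)
        (((G (N (q K j))).le_opNorm y).trans
          (mul_le_mul_of_nonneg_right (hGR _) (norm_nonneg _))) 2).trans (le_of_eq ?_)
      rw [card_range, nsmul_eq_mul]; push_cast; rfl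
    have he : ∀ i, ‖F K i y‖ ^ 2 = ((2 : ℝ) ^ K)⁻¹ ^ 2 *
        ‖∑ j ∈ range (2 ^ K), sg (Nat.testBit j i) (G (N (q K j)) y)‖ ^ 2 := fun i => by
      simp [F, _root_.sum_apply, sg_apply, norm_smul, mul_pow]
    simp only [he, ← mul_sum]
    rw [inv_pow, inv_mul_le_iff₀ (by positivity)]
    have h3 := mul_le_mul_of_nonneg_left h2 (show (0 : ℝ) ≤ 2 ^ K by positivity)
    have h4 : ((2 : ℝ) ^ K) ^ 2 = 2 ^ K * 2 ^ K := sq _
    rw [h4, mul_assoc]
    linarith [sq_nonneg ‖∑ j ∈ range (2 ^ K), G (N (q K j)) y‖]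
  have hlow : ∀ i, ε * η / 2 ≤ ‖f i‖ := by
    intro i
    refine (ge_of_tendsto ((RCLike.continuous_re.tendsto _).comp (hf i (x i)))
      (((eventually_gt_atTop i).filter_mono hU).mono fun K hK => ?_)).trans
      ((le_abs_self _).trans ((re_apply_le _ _).trans
        (mul_le_of_le_one_right (norm_nonneg _) (hx i))))
    have := hq K i hK
    simp [F, _root_.sum_apply, sg_apply, re_sg, RCLike.smul_re]
    rw [le_inv_mul_iff₀ (by positivity)]
    linarith
  obtain ⟨y, hy, hfr⟩ := hbad f (fun i => hWc _ _ U (fun K => hFW K i) (hf i)) _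
    (by positivity) hlow
  have hs : Summable fun i => ‖f i y‖ ^ 2 :=
    summable_of_sum_range_le (fun i => sq_nonneg _) fun n => hsum n y
  have hpos : 0 < ε * (ε * η / 2) := by positivity
  obtain ⟨i, hi, hi'⟩ := (hfr.and_eventually
    (hs.tendsto_atTop_zero.eventually (eventually_lt_nhds (pow_pos hpos 2)))).exists
  have := (le_abs_self _).trans (RCLike.abs_re_le_norm (f i y))
  nlinarith [norm_nonneg (f i y)]

/-- Unit functionals vanishing on `V` with small limit oscillation at every point. -/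
theorem exists_small_functionals (hX : ¬ FiniteDimensional 𝕜 X) (V : Finset X) {ε : ℝ}
    (hε : 0 < ε) : ∃ h : ℕ → StrongDual 𝕜 X, (∀ n, ‖h n‖ = 1) ∧ (∀ n, ∀ x ∈ V, h n x = 0) ∧
      ∀ x, ∀ᶠ n in atTop, ‖h n x‖ ≤ ε * ‖x‖ := by
  by_contra hcon
  simp only [not_exists, not_and, not_forall, not_eventually, not_le] at hcon
  refine false_of_bad (W := killSet (𝕜 := 𝕜) V) (killSet_not_finite hX V)
    (fun F f U hF hf x hx => tendsto_nhds_unique (hf x)
      (tendsto_const_nhds.congr fun n => (hF n x hx).symm))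
    (half_pos hε) fun h hW r hr hn => ?_
  have hpos : ∀ n, 0 < ‖h n‖ := fun n => hr.trans_le (hn n)
  obtain ⟨x, hfr⟩ := hcon (fun n => (‖h n‖⁻¹ : ℝ) • h n)
    (fun n => by rw [norm_smul]; simp [(hpos n).ne'])
    (fun n x hx => (killSet (𝕜 := 𝕜) V).smul_mem _ (hW n) x hx)
  have hx0 : 0 < ‖x‖ := by
    rcases eq_or_ne x 0 with rfl | h0
    · obtain ⟨n, hn'⟩ := hfr.exists
      simp at hn'
    · exact norm_pos_iff.2 h0
  let z : X := ((‖x‖⁻¹ : ℝ) : 𝕜) • x
  have hz : ‖z‖ = 1 := by simp [z, norm_smul, hx0.ne']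
  have hbig : ∃ᶠ n in atTop, ε * r < ‖h n z‖ := hfr.mono fun n hn' => by
    have h1 : ε * ‖x‖ < ‖h n‖⁻¹ * ‖h n x‖ := by simpa [norm_smul] using hn'
    rw [lt_inv_mul_iff₀ (hpos n)] at h1
    have h2 : ‖h n z‖ = ‖x‖⁻¹ * ‖h n x‖ := by simp [z]
    rw [h2, lt_inv_mul_iff₀ hx0]
    nlinarith [mul_le_mul_of_nonneg_right (hn n) (mul_nonneg hε.le hx0.le)]
  have hcase : ∃ᶠ n in atTop, (ε / 2 * r < RCLike.re (h n z) ∨ ε / 2 * r < RCLike.re (h n (-z))) ∨
      (ε / 2 * r < RCLike.re (h n ((RCLike.I : 𝕜) • z)) ∨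
        ε / 2 * r < RCLike.re (h n (-((RCLike.I : 𝕜) • z)))) := hbig.mono fun n hn' => by
    by_contra hno
    simp only [not_or, not_lt, map_neg, map_smul, smul_eq_mul] at hno
    obtain ⟨⟨h1, h2⟩, h3, h4⟩ := hno
    rw [RCLike.mul_re, RCLike.I_re, zero_mul, zero_sub, RCLike.I_im'] at h3 h4
    have : ‖h n z‖ ≤ |RCLike.re (h n z)| + |RCLike.im (h n z)| := by
      nlinarith [RCLike.norm_sq_eq_def (z := h n z), sq_abs (RCLike.re (h n z)),
        sq_abs (RCLike.im (h n z)), abs_nonneg (RCLike.re (h n z)), abs_nonneg (RCLike.im (h n z)),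
        norm_nonneg (h n z)]
    have h5 : |RCLike.re (h n z)| ≤ ε / 2 * r := abs_le.2 ⟨by linarith, h1⟩
    have h6 : |RCLike.im (h n z)| ≤ ε / 2 * r := abs_le.2 ⟨by linarith, by linarith⟩
    linarith
  have hI : ‖(RCLike.I : 𝕜) • z‖ ≤ 1 := by
    rw [norm_smul, hz, mul_one]
    rcases RCLike.I_eq_zero_or_im_I_eq_one (K := 𝕜) with h0 | h0
    · simp [h0]
    · rw [RCLike.norm_I_of_ne_zero fun h' => by simp [h'] at h0]
  rcases frequently_or_distrib.1 hcase with h1 | h1 <;>
    rcases frequently_or_distrib.1 h1 with h2 | h2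
  · exact ⟨z, hz.le, h2⟩
  · exact ⟨-z, by rw [norm_neg, hz], h2⟩
  · exact ⟨_, hI, h2⟩
  · exact ⟨_, by rw [norm_neg]; exact hI, h2⟩

end Vale.Agent.P129
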