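import Mathlib

/-!
Finitely supported random unit vectors that are small against every norm-one functional, in any
finite-dimensional real normed space of large dimension (minimax and a trace identity).
-/

namespace Vale.Agent.P129

open Finset

variable {F : Type*} [NormedAddCommGroup F] [NormedSpace ℝ F]

/-- A Euclidean domination of the norm by finitely many functionals bounds the dimension. -/
theorem dim_le_of_domination [FiniteDimensional ℝ F] {ι : Type*} [Fintype ι]
    (φ : ι → StrongDual ℝ F) (w : ι → ℝ) (hw0 : ∀ j, 0 ≤ w j) (hw1 : ∑ j, w j = 1)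
    (hφ : ∀ j, ‖φ j‖ ≤ 1) {ε : ℝ} (hε : 0 < ε)
    (h : ∀ v : F, ε * ‖v‖ ≤ ∑ j, w j * |φ j v|) :
    (Module.finrank ℝ F : ℝ) ≤ (1 / ε) ^ 2 := by
  classical
  let T : F →ₗ[ℝ] EuclideanSpace ℝ ι :=
    (WithLp.linearEquiv 2 ℝ (ι → ℝ)).symm.toLinearMap.comp
      (LinearMap.pi fun j => Real.sqrt (w j) • (φ j).toLinearMap)
  have hT : ∀ v j, T v j = Real.sqrt (w j) * φ j v := fun v j => rfl
  have hTsq : ∀ v, ‖T v‖ ^ 2 = ∑ j, w j * φ j v ^ 2 := by
    intro v
    rw [EuclideanSpace.real_norm_sq_eq]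
    exact sum_congr rfl fun j _ => by rw [hT, mul_pow, Real.sq_sqrt (hw0 j)]
  have hlow : ∀ v, ε * ‖v‖ ≤ ‖T v‖ := by
    intro v
    refine (h v).trans ?_
    have hcs := sum_mul_sq_le_sq_mul_sq univ (fun j => Real.sqrt (w j))
      (fun j => Real.sqrt (w j) * |φ j v|)
    have e1 : ∀ j, Real.sqrt (w j) * (Real.sqrt (w j) * |φ j v|) = w j * |φ j v| := fun j => by
      rw [← mul_assoc, Real.mul_self_sqrt (hw0 j)]
    have e2 : ∀ j, (Real.sqrt (w j) * |φ j v|) ^ 2 = w j * φ j v ^ 2 := fun j => by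
      rw [mul_pow, Real.sq_sqrt (hw0 j), sq_abs]
    have e3 : ∀ j, Real.sqrt (w j) ^ 2 = w j := fun j => Real.sq_sqrt (hw0 j)
    simp only [e1, e2, e3, hw1, one_mul] at hcs
    rw [← hTsq] at hcs
    exact (abs_le_of_sq_le_sq hcs (norm_nonneg _)).trans' (le_abs_self _)
  have hinj : Function.Injective T := by
    refine (injective_iff_map_eq_zero T).2 fun v hv => ?_
    have := hlow v
    rw [hv, norm_zero] at this
    exact norm_le_zero_iff.1 (nonpos_of_mul_nonpos_right this hε)
  let b := stdOrthonormalBasis ℝ (LinearMap.range T)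
  have hdim : Module.finrank ℝ (LinearMap.range T) = Module.finrank ℝ F :=
    LinearMap.finrank_range_of_inj hinj
  have hb : ∀ i, ∃ v, T v = (b i : EuclideanSpace ℝ ι) := fun i =>
    LinearMap.mem_range.1 (b i).2
  choose v hv using hb
  have hbound : ∀ j, ∑ i, φ j (v i) ^ 2 ≤ (1 / ε) ^ 2 := by
    intro j
    set S := ∑ i, φ j (v i) ^ 2 with hS
    have hS0 : 0 ≤ S := sum_nonneg fun i _ => sq_nonneg _
    set z := ∑ i, φ j (v i) • v i with hz
    have hval : φ j z = S := by
      simp [hz, hS, map_sum, map_smul, sq]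
    have hnorm : ‖T z‖ = Real.sqrt S := by
      have e : T z = ((∑ i, φ j (v i) • b i : LinearMap.range T) : EuclideanSpace ℝ ι) := by
        simp [hz, map_sum, map_smul, hv]
      rw [e, Submodule.norm_coe]
      have e2 : ‖∑ i, φ j (v i) • b i‖ ^ 2 = S := by
        rw [← real_inner_self_eq_norm_sq, b.orthonormal.inner_sum]
        simp [hS, sq]
      rw [← e2, Real.sqrt_sq (norm_nonneg _)]
    have h1 : S ≤ ‖z‖ := by
      rw [← hval]
      exact (le_abs_self _).trans (((φ j).le_of_opNorm_le (hφ j) z).trans (one_mul _).le)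
    have h2 : ε * S ≤ Real.sqrt S :=
      (mul_le_mul_of_nonneg_left h1 hε.le).trans ((hlow z).trans hnorm.le)
    have h3 : Real.sqrt S ≤ 1 / ε := by
      rw [le_div_iff₀ hε]
      by_contra hc
      push Not at hc
      have hs : 0 < Real.sqrt S := by nlinarith [Real.sqrt_nonneg S]
      nlinarith [Real.sq_sqrt hS0, mul_pos hs (sub_pos.2 hc)]
    calc S = Real.sqrt S ^ 2 := (Real.sq_sqrt hS0).symm
      _ ≤ _ := pow_le_pow_left₀ (Real.sqrt_nonneg _) h3 2
  have htrace : ((Fintype.card (Fin (Module.finrank ℝ (LinearMap.range T)))) : ℝ) =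
      ∑ i, ‖T (v i)‖ ^ 2 := by
    simp [hv, Submodule.norm_coe, b.norm_eq_one]
  rw [Fintype.card_fin] at htrace
  rw [← hdim, htrace]
  simp only [hTsq]
  rw [sum_comm]
  calc ∑ j, ∑ i, w j * φ j (v i) ^ 2 = ∑ j, w j * ∑ i, φ j (v i) ^ 2 := by simp [mul_sum]
    _ ≤ ∑ j, w j * (1 / ε) ^ 2 :=
      sum_le_sum fun j _ => mul_le_mul_of_nonneg_left (hbound j) (hw0 j)
    _ = (1 / ε) ^ 2 := by rw [← sum_mul, hw1, one_mul]

/-- If the dimension exceeds `1/ε^2`, some finitely supported random unit vector has mean absolute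
value at most `2 ε` against every functional of norm at most one. -/
theorem exists_small_random_vector [FiniteDimensional ℝ F] {ε : ℝ} (hε : 0 < ε)
    (hdim : (1 / ε) ^ 2 < (Module.finrank ℝ F : ℝ)) :
    ∃ (m : ℕ) (v : Fin m → F) (p : Fin m → ℝ), (∀ i, ‖v i‖ = 1) ∧ (∀ i, 0 ≤ p i) ∧
      ∑ i, p i = 1 ∧ ∀ φ : StrongDual ℝ F, ∑ i, p i * |φ (v i)| ≤ 2 * ε * ‖φ‖ := by
  classical
  have hpos : 0 < Module.finrank ℝ F := by
    have h0 : (0 : ℝ) < (Module.finrank ℝ F : ℝ) := (sq_nonneg _).trans_lt hdim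
    exact_mod_cast h0
  have : Nontrivial F := Module.finrank_pos_iff.1 hpos
  obtain ⟨V, hVs, hVf, hVc⟩ := finite_cover_balls_of_compact
    (isCompact_sphere (0 : F) 1) hε
  letI : Fintype V := hVf.fintype
  let A : Set (V → ℝ) := {a | ∀ v, 2 * ε < a v}
  let C : Set (V → ℝ) := convexHull ℝ
    {c | ∃ φ : StrongDual ℝ F, ‖φ‖ ≤ 1 ∧ c = fun v : V => |φ (v : F)|}
  by_cases hmeet : ∃ a, a ∈ A ∧ a ∈ C
  · obtain ⟨a, haA, haC⟩ := hmeet
    obtain ⟨ι, _, w, z, hw0, hw1, hz, hza⟩ := mem_convexHull_iff_exists_fintype.1 haC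
    choose φ hφ hzφ using hz
    have hV : ∀ v : V, 2 * ε ≤ ∑ j, w j * |φ j (v : F)| := by
      intro v
      have := haA v
      rw [← hza] at this
      simpa [hzφ] using this.le
    have hsph : ∀ y : F, ‖y‖ = 1 → ε ≤ ∑ j, w j * |φ j y| := by
      intro y hy
      have hmem := hVc (show y ∈ Metric.sphere (0 : F) 1 by simpa using hy)
      simp only [Set.mem_iUnion, Metric.mem_ball, dist_eq_norm] at hmem
      obtain ⟨v, hv, hd⟩ := hmem
      have hone : ∀ j, w j * |φ j v| ≤ w j * |φ j y| + w j * ε := by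
        intro j
        rw [← mul_add]
        refine mul_le_mul_of_nonneg_left ?_ (hw0 j)
        have h1 := abs_sub_abs_le_abs_sub (φ j v) (φ j y)
        have h2 : |φ j v - φ j y| ≤ ‖v - y‖ := by
          rw [← map_sub]
          exact ((φ j).le_of_opNorm_le (hφ j) _).trans (one_mul _).le
        rw [norm_sub_rev] at h2
        linarith
      have h3 := (hV ⟨v, hv⟩).trans (sum_le_sum fun j _ => hone j)
      rw [sum_add_distrib, ← sum_mul, hw1, one_mul] at h3
      linarith
    have hdom : ∀ y : F, ε * ‖y‖ ≤ ∑ j, w j * |φ j y| := by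
      intro y
      rcases eq_or_ne y 0 with rfl | hy
      · simp
      have hyn : 0 < ‖y‖ := norm_pos_iff.2 hy
      have h1 := hsph (‖y‖⁻¹ • y) (by rw [norm_smul, norm_inv, norm_norm, inv_mul_cancel₀ hyn.ne'])
      simp only [map_smul, smul_eq_mul, abs_mul, abs_inv, abs_norm] at h1
      have e : ∀ j, w j * (‖y‖⁻¹ * |φ j y|) = (w j * |φ j y|) / ‖y‖ := fun j => by ring
      simp only [e, ← sum_div] at h1
      exact (le_div_iff₀ hyn).1 h1
    exact absurd (dim_le_of_domination φ w hw0 hw1 hφ hε hdom) (not_le.2 hdim)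
  · have hAeq : A = Set.univ.pi fun _ => Set.Ioi (2 * ε) := by
      ext a; simp [A, Set.mem_pi]
    have hAc : Convex ℝ A := hAeq ▸ convex_pi fun _ _ => convex_Ioi _
    have hAo : IsOpen A := hAeq ▸ isOpen_set_pi Set.finite_univ fun _ _ => isOpen_Ioi
    obtain ⟨f, u, hfA, hfC⟩ := geometric_hahn_banach_open hAc hAo (convex_convexHull ℝ _)
      (Set.disjoint_left.2 fun a ha hc => hmeet ⟨a, ha, hc⟩)
    let c : V → ℝ := fun v => -f (fun i => if i = v then 1 else 0)
    have hf : ∀ a : V → ℝ, f a = -∑ v, a v * c v := by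
      intro a
      have h1 := congrArg f (pi_eq_sum_univ a)
      simp only [map_sum, map_smul, smul_eq_mul] at h1
      rw [h1, ← sum_neg_distrib]
      refine sum_congr rfl fun v _ => ?_
      simp only [c, mul_neg, neg_neg]
      congr 1
      exact congrArg f (funext fun i => by simp [eq_comm])
    have hconst : ∀ t : ℝ, 2 * ε < t → -(t * ∑ v, c v) < u := by
      intro t ht
      have := hfA (fun _ => t) fun _ => ht
      rwa [hf, ← mul_sum] at this
    have hc0 : ∀ v, 0 ≤ c v := by
      intro v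
      by_contra hneg
      push Not at hneg
      obtain ⟨s, hs0, hs⟩ : ∃ s : ℝ, 0 ≤ s ∧ u ≤ -((3 * ε) * ∑ w, c w) - s * c v := by
        refine ⟨max 0 ((u + (3 * ε) * ∑ w, c w) / (-c v)), le_max_left _ _, ?_⟩
        have := (div_le_iff₀ (neg_pos.2 hneg)).1
          (le_max_right 0 ((u + (3 * ε) * ∑ w, c w) / (-c v)))
        linarith
      have hmem : (fun i => 3 * ε + if i = v then s else 0) ∈ A := fun i => by
        dsimp
        split_ifs <;> linarith
      have h1 := hfA _ hmem
      rw [hf] at h1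
      simp only [add_mul, sum_add_distrib, ← mul_sum, ite_mul, zero_mul, sum_ite_eq',
        mem_univ, if_true] at h1
      linarith
    have hzero : (0 : StrongDual ℝ F) = 0 := rfl
    have hCmem : ∀ φ : StrongDual ℝ F, ‖φ‖ ≤ 1 → ∑ v : V, |φ (v : F)| * c v ≤ -u := by
      intro φ hφ
      have := hfC _ (subset_convexHull ℝ _ ⟨φ, hφ, rfl⟩)
      rw [hf] at this
      linarith
    have hu : u ≤ 0 := by
      have := hCmem 0 (by simp)
      simp at this
      linarith
    set S := ∑ v, c v with hS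
    have hS0 : 0 < S := by
      rcases (sum_nonneg fun v _ => hc0 v).eq_or_lt with h | h
      · exfalso
        have := hconst (3 * ε) (by linarith)
        rw [hS, ← h] at this
        linarith
      · exact h
    have hlim : -u ≤ 2 * ε * S := by
      refine le_of_forall_pos_lt_add fun δ hδ => ?_
      have := hconst (2 * ε + δ / S) (by have := div_pos hδ hS0; linarith)
      rw [add_mul, div_mul_cancel₀ δ hS0.ne'] at this
      linarith
    let e := Fintype.equivFin V
    refine ⟨Fintype.card V, fun i => (e.symm i : F), fun i => c (e.symm i) / S, ?_, ?_, ?_, ?_⟩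
    · intro i
      simpa using hVs (e.symm i).2
    · exact fun i => div_nonneg (hc0 _) hS0.le
    · rw [e.symm.sum_comp (fun v => c v / S), ← sum_div, div_self hS0.ne']
    · intro φ
      rw [e.symm.sum_comp (fun v => c v / S * |φ (v : F)|)]
      rcases eq_or_ne φ 0 with rfl | hφ
      · simp
      have hn : 0 < ‖φ‖ := norm_pos_iff.2 hφ
      have h1 := hCmem (‖φ‖⁻¹ • φ)
        (le_of_eq (by rw [norm_smul, norm_inv, norm_norm, inv_mul_cancel₀ hn.ne']))
      simp only [smul_apply, smul_eq_mul, abs_mul, abs_inv, abs_norm] at h1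
      have e2 : ∀ v : V, ‖φ‖⁻¹ * |φ (v : F)| * c v = (c v / S * |φ (v : F)|) * (S / ‖φ‖) := by
        intro v; field_simp
      simp only [e2, ← sum_mul] at h1
      have h2 := h1.trans hlim
      rw [← mul_div_assoc, div_le_iff₀ hn] at h2
      nlinarith

end Vale.Agent.P129
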